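import Vale.Agent.P277.H60.L.Dolb
import Vale.Agent.P299.H720.Montel

/-!
# P277Z, block TOP: the Dolbeault lemma and the Weyl lemma with `L¹` estimates (for `∂̄`)
-/

open Filter Topology MeasureTheory Set Metric
open scoped ContDiff ENNReal

noncomputable section

namespace Vale.Agent.P277Z.Ln.Dol

open Vale.Agent.P272.K Vale.Agent.P277.H60.L
open Vale.Agent.P267.H439 (ker1 locallyIntegrable_ker1)

variable {n : ℕ} {ι : Type} {F : Filter ι} {S S' : Set (Cm n)}

/-- the `L¹` norm on `S` -/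
def L1 (S : Set (Cm n)) (f : Cm n → ℂ) : ℝ≥0∞ := ∫⁻ z in S, ‖f z‖ₑ

/-- smooth at the points of `S` -/
def Sm (S : Set (Cm n)) (f : Cm n → ℂ) : Prop := ∀ z ∈ S, ContDiffAt ℝ ∞ f z

/-- convergence to zero in `L¹(S)` -/
def Z (F : Filter ι) (S : Set (Cm n)) (f : ι → Cm n → ℂ) : Prop :=
  Tendsto (fun k => L1 S (f k)) F (𝓝 0)

theorem Sm.mono {f : Cm n → ℂ} (h : Sm S f) (hS : S' ⊆ S) : Sm S' f := fun z hz => h z (hS hz)

theorem Sm.sub {f g : Cm n → ℂ} (hf : Sm S f) (hg : Sm S g) : Sm S fun z => f z - g z :=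
  fun z hz => (hf z hz).sub (hg z hz)

theorem Sm.add {f g : Cm n → ℂ} (hf : Sm S f) (hg : Sm S g) : Sm S fun z => f z + g z :=
  fun z hz => (hf z hz).add (hg z hz)

theorem Sm.dzb {f : Cm n → ℂ} (hf : Sm S f) (a : Fin n) : Sm S (dzb a f) :=
  fun z hz => smooth_dzb' (hf z hz) a

theorem Sm.of {f : Cm n → ℂ} (hf : ContDiff ℝ ∞ f) : Sm S f := fun _ _ => hf.contDiffAt

theorem Sm.cont {f : Cm n → ℂ} (hf : Sm S f) : ContinuousOn f S :=
  fun z hz => (hf z hz).continuousAt.continuousWithinAt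

theorem L1_congr (hS : MeasurableSet S) {f g : Cm n → ℂ} (h : ∀ z ∈ S, ‖f z‖ₑ = ‖g z‖ₑ) :
    L1 S f = L1 S g := setLIntegral_congr_fun hS h

theorem L1_mono (h : S' ⊆ S) (f : Cm n → ℂ) : L1 S' f ≤ L1 S f := lintegral_mono_set h

theorem L1_le_add (hS : MeasurableSet S) {f g h : Cm n → ℂ} (hg : ContinuousOn g S)
    (H : ∀ z ∈ S, ‖f z‖ₑ ≤ ‖g z‖ₑ + ‖h z‖ₑ) : L1 S f ≤ L1 S g + L1 S h := by
  unfold L1
  rw [← lintegral_add_left' (hg.aemeasurable hS).enorm]
  exact setLIntegral_mono' hS H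

theorem eq_zero_of_L1 (hS : IsOpen S) {f : Cm n → ℂ} (hf : ContinuousOn f S) (h : L1 S f = 0) :
    ∀ z ∈ S, f z = 0 := by
  have : (volume : Measure (Cm n)).IsAddHaarMeasure := Measure.pi.isAddHaarMeasure _
  have h1 := (lintegral_eq_zero_iff' (hf.aemeasurable hS.measurableSet).enorm).1 h
  have h2 : f =ᵐ[volume.restrict S] fun _ => 0 := h1.mono fun z hz => by simpa using hz
  exact Measure.eqOn_open_of_ae_eq h2 hS hf continuousOn_const

theorem Z.congr (hS : MeasurableSet S) {f g : ι → Cm n → ℂ} (hf : Z F S f)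
    (h : ∀ k, ∀ z ∈ S, ‖g k z‖ₑ = ‖f k z‖ₑ) : Z F S g :=
  Tendsto.congr (fun k => (L1_congr hS (h k)).symm) hf

theorem Z.zero (hS : MeasurableSet S) {f : ι → Cm n → ℂ} (h : ∀ k, ∀ z ∈ S, f k z = 0) :
    Z F S f := by
  refine Tendsto.congr (fun k => ?_) tendsto_const_nhds
  rw [L1_congr hS (g := fun _ => 0) fun z hz => by rw [h k z hz]]
  simp [L1]

theorem Z.of_le {f : ι → Cm n → ℂ} {a : ι → ℝ≥0∞} (ha : Tendsto a F (𝓝 0)) {C : ℝ≥0∞}
    (hC : C ≠ ⊤) (h : ∀ k, L1 S (f k) ≤ C * a k) : Z F S f := by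
  have h1 : Tendsto (fun k => C * a k) F (𝓝 0) := by
    simpa using ENNReal.Tendsto.const_mul ha (Or.inr hC)
  exact tendsto_of_tendsto_of_tendsto_of_le_of_le tendsto_const_nhds h1 (fun _ => zero_le) h

theorem Z.mono {f : ι → Cm n → ℂ} (hf : Z F S f) (h : S' ⊆ S) : Z F S' f :=
  Z.of_le hf ENNReal.one_ne_top fun k => by simpa using L1_mono h (f k)

theorem Z.add' {f g : ι → Cm n → ℂ} (hf : Z F S f) (hg : Z F S' g) :
    Tendsto (fun k => L1 S (f k) + L1 S' (g k)) F (𝓝 0) := by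
  simpa using Tendsto.add hf hg

theorem Z.tri (hS : MeasurableSet S) {f g h : ι → Cm n → ℂ} (hg : Z F S g) (hh : Z F S h)
    (hc : ∀ k, ContinuousOn (g k) S) (H : ∀ k, ∀ z ∈ S, ‖f k z‖ₑ ≤ ‖g k z‖ₑ + ‖h k z‖ₑ) :
    Z F S f :=
  Z.of_le (hg.add' hh) ENNReal.one_ne_top fun k => by simpa using L1_le_add hS (hc k) (H k)

theorem Z.fst {f : ℕ → Cm n → ℂ} (hf : Z atTop S f) : Z atTop S fun p : ℕ × ℕ => f p.1 :=
  Tendsto.comp (g := fun k => L1 S (f k)) (f := Prod.fst) hf
    (by rw [← prod_atTop_atTop_eq]; exact tendsto_fst)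

theorem Z.snd {f : ℕ → Cm n → ℂ} (hf : Z atTop S f) : Z atTop S fun p : ℕ × ℕ => f p.2 :=
  Tendsto.comp (g := fun k => L1 S (f k)) (f := Prod.snd) hf
    (by rw [← prod_atTop_atTop_eq]; exact tendsto_snd)

theorem conv_eq (k : Fin n) {K : ℂ → ℝ≥0∞} (hK : Measurable K) {G : Cm n → ℝ≥0∞}
    (hG : Measurable G) :
    ∫⁻ z : Cm n, ∫⁻ t : ℂ, K t * G (z - Pi.single k t) = (∫⁻ t, K t) * ∫⁻ z, G z := by
  have : (volume : Measure (Cm n)).IsAddHaarMeasure := Measure.pi.isAddHaarMeasure _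
  have h1 : Continuous fun p : Cm n × ℂ => p.1 - Pi.single k p.2 :=
    continuous_fst.sub ((continuous_single (A := fun _ : Fin n => ℂ) k).comp continuous_snd)
  have hm : Measurable fun p : Cm n × ℂ => K p.2 * G (p.1 - Pi.single k p.2) :=
    (hK.comp measurable_snd).mul (hG.comp h1.measurable)
  rw [lintegral_lintegral_swap (f := fun (z : Cm n) (t : ℂ) => K t * G (z - (Pi.single k t : Cm n)))
    hm.aemeasurable, ← lintegral_mul_const _ hK]
  refine lintegral_congr fun t => ?_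
  have h2 : Measurable fun z : Cm n => G (z - Pi.single k t) := hG.comp (measurable_sub_const _)
  rw [lintegral_const_mul _ h2, lintegral_sub_right_eq_self G]

/-- the transform is bounded in `L¹` -/
theorem L1_T_le (c : Cm n) {R : ℝ} (hR : 0 < R) (k : Fin n) {g : Cm n → ℂ} (hg : Continuous g)
    (h : SuppIn k (closedBall (c k) R) g) :
    L1 (ball c R) (T k g) ≤ (∫⁻ t in closedBall (0 : ℂ) (2 * R), ‖ker1 t‖ₑ) * ∫⁻ z, ‖g z‖ₑ := by
  have hk : Measurable ker1 := by unfold ker1; fun_prop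
  rw [← lintegral_indicator measurableSet_closedBall,
    ← conv_eq k (hk.enorm.indicator measurableSet_closedBall) hg.measurable.enorm]
  refine le_trans (setLIntegral_mono' measurableSet_ball fun z hz => ?_)
    (setLIntegral_le_lintegral (ball c R) _)
  rw [T_eq]
  refine (enorm_integral_le_lintegral_enorm _).trans (lintegral_mono fun t => ?_)
  by_cases ht : t ∈ closedBall (0 : ℂ) (2 * R)
  · rw [indicator_of_mem ht, enorm_mul]
  · have h1 : g (z - Pi.single k t) = 0 := by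
      refine h _ fun h2 => ht ?_
      have h3 := (dist_pi_lt_iff hR).1 (mem_ball.1 hz) k
      simp only [Pi.sub_apply, Pi.single_eq_same, mem_closedBall, dist_eq_norm] at h2 h3 ⊢
      have h4 : t - 0 = (z k - c k) - (z k - t - c k) := by ring
      rw [h4]
      linarith [norm_sub_le (z k - c k) (z k - t - c k)]
    simp [h1]

theorem ker_ne_top (R : ℝ) : (∫⁻ t in closedBall (0 : ℂ) R, ‖ker1 t‖ₑ) ≠ ⊤ :=
  (locallyIntegrable_ker1.integrableOn_isCompact (isCompact_closedBall 0 R)).2.ne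

/-- a smooth function with support in a closed polydisc -/
def Cut (c : Cm n) (ρ : ℝ) (ψ : Cm n → ℂ) : Prop :=
  ContDiff ℝ ∞ ψ ∧ ∀ (z : Cm n) (j : Fin n), z j ∉ closedBall (c j) ρ → ψ z = 0

variable {c : Cm n} {ρ R : ℝ} {ψ : Cm n → ℂ}

theorem Cut.supp (h : Cut c ρ ψ) (j : Fin n) : SuppIn j (closedBall (c j) ρ) ψ :=
  fun z hz => h.2 z j hz

theorem Cut.dzb (h : Cut c ρ ψ) (a : Fin n) : Cut c ρ (dzb a ψ) :=
  ⟨contDiff_iff_contDiffAt.2 fun _ => smooth_dzb' h.1.contDiffAt a,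
    fun z j hz => (h.supp j).dzb isClosed_closedBall a z hz⟩

theorem Cut.mul (h : Cut c ρ ψ) (hρ : ρ < R) (hR : 0 < R) {f : Cm n → ℂ} (hf : Sm (ball c R) f) :
    Cut c ρ fun z => ψ z * f z :=
  ⟨contDiff_cut_mul hρ hR h.1 h.2 hf, fun z j hz => by simp only [h.2 z j hz, zero_mul]⟩

theorem Cut.zero (h : Cut c ρ ψ) (hρ : ρ < R) (hR : 0 < R) {z : Cm n} (hz : z ∉ ball c R) :
    ψ z = 0 := by
  by_contra h0
  refine hz (mem_ball.2 ((dist_pi_lt_iff hR).2 fun j => ?_))
  by_contra h1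
  exact h0 (h.2 z j fun h2 => h1 ((mem_closedBall.1 h2).trans_lt hρ))

theorem Cut.T_sub {χ : Cm n → ℂ} (h : Cut c ρ ψ) (h' : Cut c ρ χ) (k : Fin n) (z : Cm n) :
    T k ψ z - T k χ z = ∫ t : ℂ, ker1 t * (ψ (z - Pi.single k t) - χ (z - Pi.single k t)) := by
  rw [T_eq, T_eq, ← integral_sub
    (integrable_aux (isCompact_closedBall _ _) h.1.continuous (h.supp k) z)
    (integrable_aux (isCompact_closedBall _ _) h'.1.continuous (h'.supp k) z)]
  simp only [mul_sub]

theorem Cut.T_smooth (h : Cut c ρ ψ) (k : Fin n) : ContDiff ℝ ∞ (T k ψ) :=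
  T_contDiff (isCompact_closedBall _ _) h.1 (h.supp k)

theorem Cut.est (h : Cut c ρ ψ) (hρ : ρ < R) (hR : 0 < R) (k : Fin n) :
    ∃ C : ℝ≥0∞, C ≠ ⊤ ∧ ∀ f, Sm (ball c R) f →
      L1 (ball c R) (T k fun z => ψ z * f z) ≤ C * L1 (ball c R) f := by
  have hs : HasCompactSupport ψ := HasCompactSupport.intro (isCompact_closedBall c R)
    fun z hz => h.zero hρ hR fun h1 => hz (ball_subset_closedBall h1)
  obtain ⟨M, hM⟩ := h.1.continuous.bounded_above_of_compact_support hs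
  refine ⟨(∫⁻ t in closedBall (0 : ℂ) (2 * R), ‖ker1 t‖ₑ) * ENNReal.ofReal M,
    ENNReal.mul_ne_top (ker_ne_top _) ENNReal.ofReal_ne_top, fun f hf => ?_⟩
  have h1 := h.mul hρ hR hf
  refine (L1_T_le c hR k h1.1.continuous fun z hz =>
    h1.2 z k fun h2 => hz (closedBall_subset_closedBall hρ.le h2)).trans ?_
  rw [mul_assoc]
  refine mul_le_mul_right ?_ _
  rw [L1, ← lintegral_const_mul' _ _ ENNReal.ofReal_ne_top,
    ← lintegral_indicator measurableSet_ball]
  refine lintegral_mono fun z => ?_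
  by_cases hz : z ∈ ball c R
  · rw [indicator_of_mem hz, enorm_mul]
    refine mul_le_mul_left ?_ _
    rw [← ofReal_norm]
    exact ENNReal.ofReal_le_ofReal (hM z)
  · simp [h.zero hρ hR hz]

/-- one variable -/
theorem step (c : Cm n) {r R : ℝ} (hr : 0 < r) (hrR : r < R) (k : Fin n) :
    ∃ (U : (Cm n → ℂ) → Cm n → ℂ) (C : ℝ≥0∞), C ≠ ⊤ ∧
      (∀ f, Sm (ball c R) f → ContDiff ℝ ∞ (U f)) ∧
      (∀ f g, Sm (ball c R) f → Sm (ball c R) g →
        (U fun y => f y - g y) = fun z => U f z - U g z) ∧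
      (∀ f, Sm (ball c R) f → ∀ z ∈ ball c r, dzb k (U f) z = f z) ∧
      (∀ f, Sm (ball c R) f → L1 (ball c r) (U f) ≤ C * L1 (ball c R) f) ∧
      ∀ f g j, j ≠ k → Sm (ball c R) f → Sm (ball c R) g →
        L1 (ball c r) (fun z => g z - dzb j (U f) z) ≤
          C * (L1 (ball c R) g + L1 (ball c R) fun z => dzb j f z - dzb k g z) := by
  obtain ⟨φ, ρ, hρ, hφ, hφ1, hφ0, hφd⟩ := exists_cut c hr hrR
  have hR : 0 < R := hr.trans hrR
  have hc : Cut c ρ φ := ⟨hφ, hφ0⟩
  have hK : IsCompact (closedBall (c k) ρ) := isCompact_closedBall _ _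
  have hb : ball c r ⊆ ball c R := ball_subset_ball hrR.le
  obtain ⟨C₁, hC₁, h₁⟩ := hc.est hρ hR k
  obtain ⟨C₂, hC₂, h₂⟩ := (hc.dzb k).est hρ hR k
  have hself : ∀ f, Sm (ball c R) f → ∀ z ∈ ball c r,
      dzb k (T k fun y => φ y * f y) z = f z := fun f hf z hz => by
    have h1 := hc.mul hρ hR hf
    rw [dzb_T_self hK h1.1 (h1.supp k), hφ1 z hz, one_mul]
  refine ⟨fun f => T k fun y => φ y * f y, C₁ + C₂, ENNReal.add_ne_top.2 ⟨hC₁, hC₂⟩,
    fun f hf => (hc.mul hρ hR hf).T_smooth k, fun f g hf hg => funext fun z => ?_, hself,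
    fun f hf => (L1_mono hb _).trans ((h₁ f hf).trans (mul_le_mul_left le_self_add _)),
    fun f g j hj hf hg => ?_⟩
  · beta_reduce
    rw [(hc.mul hρ hR hf).T_sub (hc.mul hρ hR hg), T_eq]
    simp only [mul_sub]
  · have hd : Sm (ball c R) fun z => dzb j f z - dzb k g z := (hf.dzb j).sub (hg.dzb k)
    have a1 := hc.mul hρ hR hf
    have a2 := hc.mul hρ hR hg
    have a3 := (hc.dzb k).mul hρ hR hg
    have a4 := hc.mul hρ hR hd
    have key : ∀ z ∈ ball c r, g z - dzb j (T k fun y => φ y * f y) z =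
        T k (fun y => dzb k φ y * g y) z - T k (fun y => φ y * (dzb j f y - dzb k g y)) z := by
      intro z hz
      rw [← hself g hg z hz, dzb_T hK a2.1 (a2.supp k), dzb_T hK a1.1 (a1.supp k),
        (a2.dzb k).T_sub (a1.dzb j), a3.T_sub a4]
      refine integral_congr_ae (Eventually.of_forall fun t => ?_)
      beta_reduce
      congr 1
      set w : Cm n := z - Pi.single k t with hw
      by_cases hwR : w ∈ ball c R
      · have hwb : w j ∈ ball (c j) r := by
          have hwj : w j = z j := by rw [hw]; simp [Pi.single_eq_of_ne hj]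
          rw [hwj]
          exact mem_ball.2 ((dist_pi_lt_iff hr).1 (mem_ball.1 hz) j)
        rw [dzb_mul (hφ.differentiable (by simp) w) (diff_of_smooth (hg w hwR)),
          dzb_mul (hφ.differentiable (by simp) w) (diff_of_smooth (hf w hwR)), hφd w j hwb]
        ring
      · rw [(a2.dzb k).zero hρ hR hwR, (a1.dzb j).zero hρ hR hwR, (hc.dzb k).zero hρ hR hwR,
          hc.zero hρ hR hwR]
        ring
    refine (L1_le_add measurableSet_ball (a3.T_smooth k).continuous.continuousOn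
      fun z hz => by rw [key z hz]; exact enorm_sub_le).trans ?_
    rw [mul_add]
    exact add_le_add ((L1_mono hb _).trans ((h₂ g hg).trans (mul_le_mul_left le_add_self _)))
      ((L1_mono hb _).trans ((h₁ _ hd).trans (mul_le_mul_left le_self_add _)))

/-- the solution operator -/
theorem dol_aux (m : ℕ) : ∀ (c : Cm n) (r R : ℝ), 0 < r → r < R →
    ∃ U : (Fin n → Cm n → ℂ) → Cm n → ℂ,
      (∀ θ, (∀ i, Sm (ball c R) (θ i)) → ContDiff ℝ ∞ (U θ)) ∧
      (∀ θ η, (∀ i, Sm (ball c R) (θ i)) → (∀ i, Sm (ball c R) (η i)) →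
        (U fun i y => θ i y - η i y) = fun z => U θ z - U η z) ∧
      ∀ (ι : Type) (F : Filter ι) (θ : ι → Fin n → Cm n → ℂ), (∀ k i, Sm (ball c R) (θ k i)) →
        (∀ a b, Z F (ball c R) fun k z => dzb a (θ k b) z - dzb b (θ k a) z) →
        ((∀ i, Z F (ball c R) fun k => θ k i) → Z F (ball c r) fun k => U (θ k)) ∧
        ((∀ i : Fin n, m ≤ i → Z F (ball c R) fun k => θ k i) →
          ∀ a, Z F (ball c r) fun k z => dzb a (U (θ k)) z - θ k a z) := by
  induction m with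
  | zero =>
    intro c r R hr hrR
    refine ⟨fun _ _ => 0, fun _ _ => contDiff_const, fun _ _ _ _ => by simp,
      fun ι F θ _ _ => ⟨fun _ => Z.zero measurableSet_ball fun _ _ _ => rfl, fun h a =>
        ((h a (Nat.zero_le _)).mono (ball_subset_ball hrR.le)).congr measurableSet_ball
          fun k z _ => by rw [dzb_const, zero_sub, enorm_neg]⟩⟩
  | succ m ih =>
    intro c r R hr hrR
    by_cases hm : m < n
    swap
    · obtain ⟨U, h1, h2, h3⟩ := ih c r R hr hrR
      exact ⟨U, h1, h2, fun ι F θ hθ hd => ⟨(h3 ι F θ hθ hd).1, fun _ =>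
        (h3 ι F θ hθ hd).2 fun i hi => absurd i.2 (by omega)⟩⟩
    obtain ⟨r', h1, h2⟩ := exists_between hrR
    have hb : ball c r' ⊆ ball c R := ball_subset_ball h2.le
    have hb' : ball c r ⊆ ball c r' := ball_subset_ball h1.le
    obtain ⟨U₁, C, hC, a1, a2, a3, a4, a5⟩ := step c (hr.trans h1) h2 ⟨m, hm⟩
    obtain ⟨U₂, b1, b2, b3⟩ := ih c r r' hr h1
    set k₀ : Fin n := ⟨m, hm⟩ with hk₀
    let P : (Fin n → Cm n → ℂ) → Fin n → Cm n → ℂ := fun θ i y => θ i y - dzb i (U₁ (θ k₀)) y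
    have hP : ∀ θ, (∀ i, Sm (ball c R) (θ i)) → ∀ i, Sm (ball c r') (P θ i) := fun θ hθ i =>
      ((hθ i).mono hb).sub ((Sm.of (a1 _ (hθ k₀))).dzb i)
    refine ⟨fun θ z => U₁ (θ k₀) z + U₂ (P θ) z, fun θ hθ => (a1 _ (hθ k₀)).add (b1 _ (hP θ hθ)),
      fun θ η hθ hη => ?_, fun ι F θ hθ hd => ?_⟩
    · have e : (P fun i y => θ i y - η i y) = fun i y => P θ i y - P η i y := by
        funext i y
        simp only [P]
        rw [a2 _ _ (hθ k₀) (hη k₀), dzb_sub ((a1 _ (hθ k₀)).differentiable (by simp) y)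
          ((a1 _ (hη k₀)).differentiable (by simp) y)]
        ring
      funext z
      beta_reduce
      rw [e, b2 _ _ (hP θ hθ) (hP η hη), a2 _ _ (hθ k₀) (hη k₀)]
      ring
    · have hd' : ∀ a b, Z F (ball c r') fun k z => dzb a (P (θ k) b) z - dzb b (P (θ k) a) z :=
        fun a b => ((hd a b).mono hb).congr measurableSet_ball fun k z hz => by
          have h3 := (a1 _ (hθ k k₀)).contDiffAt (x := z)
          simp only [P]
          rw [dzb_sub (diff_of_smooth (hθ k b z (hb hz))) (diff_of_smooth (smooth_dzb' h3 b)),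
            dzb_sub (diff_of_smooth (hθ k a z (hb hz))) (diff_of_smooth (smooth_dzb' h3 a)),
            dzb_dzb_comm (i := a) (two_of_smooth h3)]
          congr 1
          ring
      have hz : ∀ i, (i ≠ k₀ → Z F (ball c R) fun k => θ k i) →
          Z F (ball c r') fun k => P (θ k) i := fun i hi => by
        by_cases h : i = k₀
        · exact Z.zero measurableSet_ball fun k z hz => by
            simp only [P]
            rw [h, a3 _ (hθ k k₀) z hz, sub_self]
        · exact Z.of_le ((hi h).add' (hd i k₀)) hC fun k => a5 _ _ i h (hθ k k₀) (hθ k i)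
      obtain ⟨c1, c2⟩ := b3 ι F (fun k => P (θ k)) (fun k => hP _ (hθ k)) hd'
      refine ⟨fun h => Z.tri measurableSet_ball
        ((Z.of_le (h k₀) hC fun k => a4 _ (hθ k k₀)).mono hb') (c1 fun i => hz i fun _ => h i)
        (fun k => (a1 _ (hθ k k₀)).continuous.continuousOn) fun k z _ => enorm_add_le _ _,
        fun h a => (c2 (fun i hi => hz i fun h' => h i ?_) a).congr measurableSet_ball
          fun k z _ => ?_⟩
      · have : (i : ℕ) ≠ m := fun h'' => h' (Fin.ext h'')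
        omega
      · rw [dzb_add ((a1 _ (hθ k k₀)).differentiable (by simp) z)
          ((b1 _ (hP _ (hθ k))).differentiable (by simp) z)]
        simp only [P]
        congr 1
        ring

theorem closed_sub {θ : ℕ → Fin n → Cm n → ℂ} (hS : IsOpen S) (hθ : ∀ k i, Sm S (θ k i))
    (hd : ∀ a b, Z atTop S fun k z => dzb a (θ k b) z - dzb b (θ k a) z) (a b : Fin n) :
    Z atTop S fun (p : ℕ × ℕ) z => dzb a (fun y => θ p.1 b y - θ p.2 b y) z -
      dzb b (fun y => θ p.1 a y - θ p.2 a y) z :=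
  Z.tri hS.measurableSet (hd a b).fst (hd a b).snd
    (fun p => (((hθ _ b).dzb a).sub ((hθ _ a).dzb b)).cont) fun p z hz => by
      rw [dzb_sub (diff_of_smooth (hθ _ b z hz)) (diff_of_smooth (hθ _ b z hz)),
        dzb_sub (diff_of_smooth (hθ _ a z hz)) (diff_of_smooth (hθ _ a z hz))]
      refine le_trans (le_of_eq ?_) enorm_sub_le
      congr 1
      ring

/-- approximate solutions of `∂̄u = θ` -/
theorem dol (c : Cm n) {r R : ℝ} (hr : 0 < r) (hrR : r < R) (θ : ℕ → Fin n → Cm n → ℂ)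
    (hθ : ∀ k i, Sm (ball c R) (θ k i))
    (hc : ∀ i, Z atTop (ball c R) fun (p : ℕ × ℕ) z => θ p.1 i z - θ p.2 i z)
    (hd : ∀ a b, Z atTop (ball c R) fun k z => dzb a (θ k b) z - dzb b (θ k a) z) :
    ∃ u : ℕ → Cm n → ℂ, (∀ k, ContDiff ℝ ∞ (u k)) ∧
      (Z atTop (ball c r) fun (p : ℕ × ℕ) z => u p.1 z - u p.2 z) ∧
      ∀ a, Z atTop (ball c r) fun k z => dzb a (u k) z - θ k a z := by
  obtain ⟨U, h1, h2, h3⟩ := dol_aux n c r R hr hrR
  refine ⟨fun k => U (θ k), fun k => h1 _ (hθ k), ?_,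
    (h3 ℕ atTop θ hθ hd).2 fun i hi => absurd i.2 (by omega)⟩
  refine ((h3 (ℕ × ℕ) atTop (fun p i y => θ p.1 i y - θ p.2 i y)
    (fun p i => (hθ _ i).sub (hθ _ i)) (closed_sub isOpen_ball hθ hd)).1 hc).congr
    measurableSet_ball fun p z _ => ?_
  rw [h2 _ _ (hθ _) (hθ _)]

theorem mean_circle {r : ℝ} {z₀ : Cm n} {G : Cm n → ℂ} (hG : DifferentiableOn ℂ G (ball z₀ r))
    {v : Cm n} (hv : v ∈ ball (0 : Cm n) r) : ENNReal.ofReal (2 * Real.pi) * ‖G z₀‖ₑ ≤
      ∫⁻ θ in Ioc (0 : ℝ) (2 * Real.pi), ‖G (z₀ + circleMap 0 1 θ • v)‖ₑ := by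
  rw [mem_ball_zero_iff] at hv
  have hd : DifferentiableOn ℂ (fun t : ℂ => G (z₀ + t • v)) (closedBall 0 1) := by
    refine hG.comp (by fun_prop) fun t ht => ?_
    rw [mem_closedBall_zero_iff] at ht
    rw [mem_ball, dist_eq_norm, add_sub_cancel_left, norm_smul]
    exact (mul_le_of_le_one_left (norm_nonneg _) ht).trans_lt hv
  have h1 : DiffContOnCl ℂ (fun t : ℂ => G (z₀ + t • v)) (ball 0 |1|) := by
    rw [abs_one]
    exact hd.diffContOnCl_ball le_rfl
  have h2 := h1.circleAverage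
  have hpi : (0 : ℝ) < 2 * Real.pi := by positivity
  rw [Real.circleAverage_def, zero_smul, add_zero, inv_smul_eq_iff₀ hpi.ne',
    intervalIntegral.integral_of_le hpi.le] at h2
  have h3 : ENNReal.ofReal (2 * Real.pi) * ‖G z₀‖ₑ = ‖(2 * Real.pi) • G z₀‖ₑ := by
    rw [enorm_smul, Real.enorm_eq_ofReal hpi.le]
  rw [h3, ← h2]
  exact enorm_integral_le_lintegral_enorm _

/-- the mean value inequality on a polydisc -/
theorem mean_ball {r : ℝ} {z₀ : Cm n} {G : Cm n → ℂ} (hG : DifferentiableOn ℂ G (ball z₀ r)) :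
    ‖G z₀‖ₑ * volume (ball (0 : Cm n) r) ≤ L1 (ball z₀ r) G := by
  classical
  have : (volume : Measure (Cm n)).IsAddHaarMeasure := Measure.pi.isAddHaarMeasure _
  have hrot : ∀ c : ℂ, ‖c‖ = 1 → MeasurePreserving (fun v : Cm n => c • v) volume volume :=
    fun c hc => volume_preserving_pi fun _ : Fin n =>
      (rotation (⟨c, mem_sphere_zero_iff_norm.2 hc⟩ : Circle)).measurePreserving
  let H : Cm n → ℝ≥0∞ := (ball z₀ r).piecewise (fun z => ‖G z‖ₑ) fun _ => 0
  have hH : Measurable H := hG.continuousOn.enorm.measurable_piecewise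
      continuousOn_const isOpen_ball.measurableSet
  have hR : L1 (ball z₀ r) G = ∫⁻ z, H z := (lintegral_indicator isOpen_ball.measurableSet _).symm
  have h1 : ∀ θ : ℝ, ∫⁻ v, H (z₀ + circleMap 0 1 θ • v) = ∫⁻ z, H z := fun θ =>
    ((measurePreserving_add_left volume z₀).comp (hrot _ (by simp))).lintegral_comp hH
  have hm : Measurable (Function.uncurry fun (θ : ℝ) (v : Cm n) =>
      H (z₀ + circleMap 0 1 θ • v)) :=
    hH.comp (continuous_const.add (((continuous_circleMap 0 1).comp continuous_fst).smul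
      continuous_snd)).measurable
  have h2 : ENNReal.ofReal (2 * Real.pi) * (‖G z₀‖ₑ * volume (ball (0 : Cm n) r)) ≤
      ENNReal.ofReal (2 * Real.pi) * ∫⁻ z, H z :=
    calc ENNReal.ofReal (2 * Real.pi) * (‖G z₀‖ₑ * volume (ball (0 : Cm n) r))
        = ∫⁻ _ in ball (0 : Cm n) r, ENNReal.ofReal (2 * Real.pi) * ‖G z₀‖ₑ := by
          rw [setLIntegral_const, mul_assoc]
      _ ≤ ∫⁻ v in ball (0 : Cm n) r, ∫⁻ θ in Ioc (0 : ℝ) (2 * Real.pi),
            H (z₀ + circleMap 0 1 θ • v) := by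
          refine setLIntegral_mono' isOpen_ball.measurableSet fun v hv =>
            (mean_circle hG hv).trans (le_of_eq (lintegral_congr fun θ => ?_))
          have h3 : z₀ + circleMap 0 1 θ • v ∈ ball z₀ r := by
            simpa [mem_ball, dist_eq_norm, norm_smul] using hv
          simp only [H, piecewise_eq_of_mem _ _ _ h3]
      _ ≤ ∫⁻ v, ∫⁻ θ in Ioc (0 : ℝ) (2 * Real.pi), H (z₀ + circleMap 0 1 θ • v) :=
          setLIntegral_le_lintegral _ _
      _ = ∫⁻ θ in Ioc (0 : ℝ) (2 * Real.pi), ∫⁻ v, H (z₀ + circleMap 0 1 θ • v) :=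
          (lintegral_lintegral_swap hm.aemeasurable).symm
      _ = _ := by
          simp only [h1]
          rw [setLIntegral_const, Real.volume_Ioc, sub_zero, mul_comm]
  rw [hR]
  exact (ENNReal.mul_le_mul_iff_right (by simpa using Real.pi_pos) ENNReal.ofReal_ne_top).1 h2

/-- limits in `L¹` of holomorphic functions -/
theorem hol_lim (c : Cm n) {r : ℝ} (hr : 0 < r) {g : ℕ → Cm n → ℂ}
    (hg : ∀ k, DifferentiableOn ℂ (g k) (ball c (2 * r)))
    (hc : Z atTop (ball c (2 * r)) fun (p : ℕ × ℕ) z => g p.1 z - g p.2 z) :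
    ∃ G, DifferentiableOn ℂ G (ball c r) ∧ Z atTop (ball c r) fun k z => g k z - G z := by
  have : (volume : Measure (Cm n)).IsAddHaarMeasure := Measure.pi.isAddHaarMeasure _
  set v : ℝ≥0∞ := volume (ball (0 : Cm n) r) with hv
  have v0 : v ≠ 0 := (measure_ball_pos volume _ hr).ne'
  have v1 : v ≠ ⊤ := measure_ball_lt_top.ne
  have hb : ball c r ⊆ ball c (2 * r) := ball_subset_ball (by linarith)
  have key : ∀ ε : ℝ≥0∞, 0 < ε → ∃ N, ∀ i ≥ N, ∀ j ≥ N, ∀ z ∈ ball c r,
      ‖g i z - g j z‖ₑ * v ≤ ε := fun ε hε => by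
    obtain ⟨N, hN⟩ := eventually_atTop.1 (ENNReal.tendsto_nhds_zero.1 hc ε hε)
    refine ⟨max N.1 N.2, fun i hi j hj z hz => ?_⟩
    have h1 : ball z r ⊆ ball c (2 * r) := ball_subset_ball' (by linarith [mem_ball.1 hz])
    exact (mean_ball (((hg i).sub (hg j)).mono h1)).trans ((L1_mono h1 _).trans
      (hN (i, j) ⟨(le_max_left _ _).trans hi, (le_max_right _ _).trans hj⟩))
  have hU : (hyperfilter ℕ : Filter ℕ) ≤ atTop := Nat.hyperfilter_le_atTop
  obtain ⟨N, hN⟩ := key v v0.bot_lt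
  obtain ⟨G, hG, -, hl⟩ := P299.H720.montel_full (hyperfilter ℕ)
    (f := fun k z => g k z - g N z) (U := ball c r) isOpen_ball fun x hx => by
      obtain ⟨δ, hδ, h⟩ := Metric.isOpen_iff.1 isOpen_ball x hx
      refine ⟨δ, hδ, 1, ((eventually_ge_atTop N).filter_mono hU).mono fun k hk =>
        ⟨((hg k).sub (hg N)).mono (h.trans hb), fun y hy => ?_⟩⟩
      have h1 := hN k hk N le_rfl y (h hy)
      nth_rewrite 2 [← one_mul v] at h1
      have h2 := (ENNReal.mul_le_mul_iff_left v0 v1).1 h1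
      rwa [← ofReal_norm, ENNReal.ofReal_le_one] at h2
  refine ⟨fun z => G z + g N z, hG.add ((hg N).mono hb),
    ENNReal.tendsto_nhds_zero.2 fun ε hε => ?_⟩
  obtain ⟨M, hM⟩ := key ε hε
  filter_upwards [eventually_ge_atTop M] with i hi
  have h1 : ∀ z ∈ ball c r, ‖g i z - (G z + g N z)‖ₑ ≤ ε / v := fun z hz => by
    have h2 : Tendsto (fun j => ‖g i z - (g j z - g N z + g N z)‖ₑ) (hyperfilter ℕ)
        (𝓝 ‖g i z - (G z + g N z)‖ₑ) :=
      (tendsto_const_nhds.sub ((hl z hz _ tendsto_const_nhds).add_const _)).enorm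
    refine le_of_tendsto h2 (((eventually_ge_atTop M).filter_mono hU).mono fun j hj => ?_)
    rw [sub_add_cancel, ENNReal.le_div_iff_mul_le (Or.inl v0) (Or.inl v1)]
    exact hM i hi j hj z hz
  refine (setLIntegral_mono' measurableSet_ball h1).trans ?_
  rw [setLIntegral_const, Measure.addHaar_ball_center, ← hv, ENNReal.div_mul_cancel v0 v1]

/-- the local Weyl lemma -/
theorem weyl_loc (c : Cm n) {r : ℝ} (hr : 0 < r) {f : ℕ → Cm n → ℂ}
    (hf : ∀ k, Sm (ball c (3 * r)) (f k))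
    (hc : Z atTop (ball c (3 * r)) fun (p : ℕ × ℕ) z => f p.1 z - f p.2 z)
    (hd : ∀ a, Z atTop (ball c (3 * r)) fun k => dzb a (f k)) :
    ∃ G, DifferentiableOn ℂ G (ball c r) ∧ Z atTop (ball c r) fun k z => f k z - G z := by
  have hb : ball c (2 * r) ⊆ ball c (3 * r) := ball_subset_ball (by linarith)
  have hb' : ball c r ⊆ ball c (2 * r) := ball_subset_ball (by linarith)
  obtain ⟨U, h1, -, h3⟩ := dol_aux n c (2 * r) (3 * r) (by linarith) (by linarith)
  have hs : ∀ k, ContDiff ℝ ∞ (U fun a => dzb a (f k)) := fun k => h1 _ fun a => (hf k).dzb a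
  have hu : Z atTop (ball c (2 * r)) fun k => U fun a => dzb a (f k) :=
    (h3 ℕ atTop _ (fun k a => (hf k).dzb a) fun a b => Z.zero measurableSet_ball fun k z hz => by
      rw [dzb_dzb_comm (i := a) (two_of_smooth (hf k z hz)), sub_self]).1 hd
  have he : ∀ k a, ∀ z ∈ ball c (2 * r), dzb a (U fun a => dzb a (f k)) z - dzb a (f k) z = 0 :=
    fun k a => eq_zero_of_L1 isOpen_ball
      (((Sm.of (hs k)).dzb a).sub (((hf k).mono hb).dzb a)).cont
      (tendsto_nhds_unique tendsto_const_nhds ((h3 ℕ atTop (fun _ a => dzb a (f k))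
        (fun _ a => (hf k).dzb a) fun a b => Z.zero measurableSet_ball fun _ z hz => by
          rw [dzb_dzb_comm (i := a) (two_of_smooth (hf k z hz)), sub_self]).2
        (fun i hi => absurd i.2 (by omega)) a))
  obtain ⟨G, hG, hl⟩ := hol_lim c hr (g := fun k z => f k z - U (fun a => dzb a (f k)) z)
    (fun k z hz => by
      have h4 := diff_of_smooth (hf k z (hb hz))
      have h5 := (hs k).differentiable (by simp) z
      refine (differentiableAt_of_dzb (h4.fun_sub h5) fun a => ?_).differentiableWithinAt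
      rw [dzb_sub h4 h5, ← neg_sub, he k a z hz, neg_zero])
    (Z.tri measurableSet_ball (hc.mono hb)
      (Z.tri (f := fun (p : ℕ × ℕ) z => U (fun a => dzb a (f p.1)) z - U (fun a => dzb a (f p.2)) z)
        measurableSet_ball hu.fst hu.snd (fun p => (hs _).continuous.continuousOn)
        fun _ _ _ => enorm_sub_le)
      (fun p => (((hf _).sub (hf _)).mono hb).cont) fun p z _ => by
        refine le_trans (le_of_eq ?_) enorm_sub_le
        congr 1
        ring)
  refine ⟨G, hG, Z.tri measurableSet_ball (hu.mono hb') hl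
    (fun k => (hs k).continuous.continuousOn) fun k z _ => le_trans (le_of_eq ?_) (enorm_add_le _ _)⟩
  congr 1
  ring

/-- the Weyl lemma -/
theorem weyl {V : Set (Cm n)} (hV : IsOpen V) {h : ℕ → Cm n → ℂ} {q : Fin n → Cm n → ℂ}
    (hh : ∀ k, Sm V (h k))
    (hl : ∀ z ∈ V, ∃ l : Cm n → ℂ, ∀ᶠ y in 𝓝 z, ContDiffAt ℝ ∞ l y ∧ ∀ a, dzb a l y = q a y)
    (hS : ∀ z ∈ V, ∃ S ∈ 𝓝 z, (Z atTop S fun (p : ℕ × ℕ) y => h p.1 y - h p.2 y) ∧
      ∀ a, Z atTop S fun k y => dzb a (h k) y - q a y) :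
    ∃ H : Cm n → ℂ, ∀ z ∈ V, ContDiffAt ℝ ∞ H z ∧ (∀ a, dzb a H z = q a z) ∧
      ∃ S ∈ 𝓝 z, Z atTop S fun k y => h k y - H y := by
  have loc : ∀ z, ∃ (r : ℝ) (H : Cm n → ℂ), z ∈ V → 0 < r ∧ ball z r ⊆ V ∧ Sm (ball z r) H ∧
      (∀ y ∈ ball z r, ∀ a, dzb a H y = q a y) ∧ Z atTop (ball z r) fun k y => h k y - H y := by
    intro z
    by_cases hz : z ∈ V
    swap
    · exact ⟨0, 0, fun h => absurd h hz⟩
    obtain ⟨l, hl⟩ := hl z hz
    obtain ⟨S, hS, h1, h2⟩ := hS z hz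
    obtain ⟨R, hR, hb⟩ := Metric.eventually_nhds_iff_ball.1 (hl.and (inter_mem hS (hV.mem_nhds hz)))
    obtain ⟨r, rfl⟩ : ∃ r, R = 3 * r := ⟨R / 3, by ring⟩
    have hr : 0 < r := by linarith
    have hb' : ball z r ⊆ ball z (3 * r) := ball_subset_ball (by linarith)
    have h3 : ball z (3 * r) ⊆ S := fun y hy => (hb y hy).2.1
    obtain ⟨G, hG, h4⟩ := weyl_loc z hr (f := fun k y => h k y - l y)
      (fun k y hy => (hh k y (hb y hy).2.2).sub (hb y hy).1.1)
      ((h1.mono h3).congr measurableSet_ball fun p y _ => by rw [sub_sub_sub_cancel_right])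
      fun a => ((h2 a).mono h3).congr measurableSet_ball fun k y hy => by
        rw [dzb_sub (diff_of_smooth (hh k y (hb y hy).2.2)) (diff_of_smooth (hb y hy).1.1),
          (hb y hy).1.2]
    have h5 : Sm (ball z r) G := fun y hy =>
      ((P268.analyticAt_of_differentiableOn isOpen_ball hG hy).contDiffAt.restrict_scalars ℝ)
    refine ⟨r, fun y => l y + G y, fun _ => ⟨hr, fun y hy => (hb y (hb' hy)).2.2,
      fun y hy => (hb y (hb' hy)).1.1.add (h5 y hy), fun y hy a => ?_,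
      h4.congr measurableSet_ball fun k y _ => by rw [sub_sub]⟩⟩
    rw [dzb_add (diff_of_smooth (hb y (hb' hy)).1.1) (diff_of_smooth (h5 y hy)),
      (hb y (hb' hy)).1.2, dzb_of_holo (hG.differentiableAt (isOpen_ball.mem_nhds hy)), add_zero]
  choose r H hH using loc
  have hgl : ∀ z ∈ V, ∀ y ∈ ball z (r z), H y y = H z y := fun z hz y hy => by
    obtain ⟨-, a1, a2, -, a3⟩ := hH z hz
    obtain ⟨b0, -, b2, -, b3⟩ := hH y (a1 hy)
    have hO : IsOpen (ball z (r z) ∩ ball y (r y)) := isOpen_ball.inter isOpen_ball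
    have c1 : Z (atTop : Filter ℕ) (ball z (r z) ∩ ball y (r y)) fun _ w => H y w - H z w :=
      Z.tri hO.measurableSet (a3.mono inter_subset_left) (b3.mono inter_subset_right)
        (fun k => ((((hh k).mono a1).sub a2).mono inter_subset_left).cont) fun k w _ => by
          refine le_trans (le_of_eq ?_) enorm_sub_le
          congr 1
          ring
    exact sub_eq_zero.1 (eq_zero_of_L1 hO
      ((b2.mono inter_subset_right).sub (a2.mono inter_subset_left)).cont
      (tendsto_nhds_unique tendsto_const_nhds c1) y ⟨hy, mem_ball_self b0⟩)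
  refine ⟨fun y => H y y, fun z hz => ?_⟩
  obtain ⟨a0, -, a2, a3, a4⟩ := hH z hz
  have he : (fun y => H y y) =ᶠ[𝓝 z] H z := Eventually.mono (ball_mem_nhds z a0) (hgl z hz)
  exact ⟨(a2 z (mem_ball_self a0)).congr_of_eventuallyEq he,
    fun a => by rw [dzb_congr he, a3 z (mem_ball_self a0)], _, ball_mem_nhds z a0,
    a4.congr measurableSet_ball fun k y hy => by simp only [hgl z hz y hy]⟩

end Vale.Agent.P277Z.Ln.Dol
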