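import Vale.Agent.P277Z.Ln.Defs
import Vale.Agent.P277Z.Van.Vol
import Vale.Agent.P299.H954.Holo
import Vale.Agent.P284.H279.K.Af

/-!
# P277Z, block LN: forms in charts, basic lemmas
-/

set_option linter.all false

open scoped Manifold ContDiff Topology ComplexConjugate ENNReal
open Set Filter MeasureTheory Metric
open Vale.Agent.P272.K Vale.Agent.P284.H608.K Vale.Agent.P284.H205.K

noncomputable section

namespace Vale.Agent.P277Z.Ln

section alg

variable {n p : ℕ} {z : Cm n}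

/-- linear forms as `1`-forms -/
def o1 (n : ℕ) : (Cm n →L[ℂ] ℂ) ≃ₗᵢ[ℂ] Af n 1 :=
  ContinuousAlternatingMap.ofSubsingletonLIE (0 : Fin 1)

theorem o1_apply (A : Cm n →L[ℂ] ℂ) (v : Fin 1 → Cm n) : o1 n A v = A (v 0) := rfl

theorem o1_comp (A : Cm n →L[ℂ] ℂ) (L : Cm n →L[ℂ] Cm n) :
    (o1 n A).compContinuousLinearMap L = o1 n (A.comp L) := by
  ext v; rfl

/-- the components of a `1`-form -/
def c1 (A : Af n 1) (a : Fin n) : ℂ := ev A fun _ => a

theorem c1_o1 (A : Cm n →L[ℂ] ℂ) (a : Fin n) : c1 (o1 n A) a = A (Pi.single a 1) := rfl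

theorem c1_add (A B : Af n 1) (a : Fin n) : c1 (A + B) a = c1 A a + c1 B a := rfl

theorem c1_sub (A B : Af n 1) (a : Fin n) : c1 (A - B) a = c1 A a - c1 B a := rfl

theorem c1_smul (c : ℂ) (A : Af n 1) (a : Fin n) : c1 (c • A) a = c * c1 A a := rfl

theorem norm_ev_le (A : Af n p) (s : Fin p → Fin n) : ‖ev A s‖ ≤ ‖A‖ := by
  refine (A.le_opNorm _).trans (le_of_eq ?_)
  simp [Pi.norm_single]

theorem norm_c1_le (A : Af n 1) : ‖c1 A‖ ≤ ‖A‖ :=
  (pi_norm_le_iff_of_nonneg (norm_nonneg _)).2 fun _ => norm_ev_le A _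

theorem c1_comp (A : Af n 1) (L : Cm n →L[ℂ] Cm n) (a : Fin n) :
    c1 (A.compContinuousLinearMap L) a = ∑ b, L (Pi.single a 1) b * c1 A b := by
  obtain ⟨B, rfl⟩ := (o1 n).surjective A
  rw [o1_comp, c1_o1, ContinuousLinearMap.comp_apply, clm_eq]
  rfl

theorem pL_single {V : Type} [NormedAddCommGroup V] [NormedSpace ℂ V] (η : Cm n → V)
    (a : Fin n) : pL η z (Pi.single a 1) = dzV a η z := by
  rw [pL_apply, Finset.sum_eq_single a]
  · simp
  · intro b _ hb; simp [hb]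
  · simp

theorem ev_dzV {η : Cm n → Af n p} (h : DifferentiableAt ℝ η z) (a : Fin n)
    (s : Fin p → Fin n) : ev (dzV a η z) s = dz a (fun y => ev (η y) s) z := by
  let Λ : Af n p →L[ℂ] ℂ := ContinuousAlternatingMap.apply ℂ (Cm n) ℂ fun i => Pi.single (s i) 1
  have h1 := ((hasW_of_diff h).clm Λ).dzV a
  rw [dz_eq_dzV]
  refine Eq.trans ?_ h1.symm
  rw [ContinuousLinearMap.comp_apply, pL_single]
  rfl

theorem dh0_eq (η : Cm n → Af n p) :
    dhL (fun _ => 0) η z = ContinuousAlternatingMap.alternatizeUncurryFin (pL η z) := by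
  rw [dhL_eq]
  congr 1
  have : pL (fun _ : Cm n => ((0 : ℝ) : ℂ)) z = 0 := by
    simpa using pL_zero (V := ℂ) (z := z)
  rw [this]
  ext v w; simp

theorem ev_dh1 {η : Cm n → Af n 1} (h : DifferentiableAt ℝ η z) (s : Fin 2 → Fin n) :
    ev (dhL (fun _ => 0) η z) s =
      dz (s 0) (fun y => c1 (η y) (s 1)) z - dz (s 1) (fun y => c1 (η y) (s 0)) z := by
  rw [dh0_eq]
  unfold ev
  rw [ContinuousAlternatingMap.alternatizeUncurryFin_apply, Fin.sum_univ_two, pL_single, pL_single]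
  unfold c1
  rw [← ev_dzV h, ← ev_dzV h]
  simp only [Fin.val_zero, pow_zero, one_smul, Fin.val_one, pow_one, neg_smul, ← sub_eq_add_neg]
  congr 1
  · unfold ev; congr 1; funext i; fin_cases i; rfl
  · unfold ev; congr 1; funext i; fin_cases i; rfl

theorem dh_pL {l : Cm n → ℂ} (h : ContDiffAt ℝ ∞ l z) :
    dhL (fun _ => 0) (fun y => o1 n (pL l y)) z = 0 := by
  refine Vale.Agent.P284.H279.K.Af_ext fun s => ?_
  have hs : ContDiffAt ℝ ∞ (fun y => o1 n (pL l y)) z :=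
    clm_sm (o1 n).toContinuousLinearEquiv.toContinuousLinearMap (pL_sm h)
  rw [ev_dh1 (hs.differentiableAt (by simp))]
  simp only [c1_o1, pL_single, dz_eq_dzV]
  rw [show (fun y => dzV (s 1) l y) = dzV (s 1) l from rfl,
    show (fun y => dzV (s 0) l y) = dzV (s 0) l from rfl, dzV_comm (h.of_le (by norm_cast)),
    sub_self]
  rfl

theorem dhL_sub {η τ : Cm n → Af n p} (h : DifferentiableAt ℝ η z)
    (h' : DifferentiableAt ℝ τ z) : dhL (fun _ => 0) (fun y => η y - τ y) z =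
      dhL (fun _ => 0) η z - dhL (fun _ => 0) τ z := by
  have h1 := dhL_add (φ := fun _ => 0) (h.sub h') h'
  simp only [Pi.sub_apply, sub_add_cancel] at h1
  rw [h1]
  simp
  rfl

end alg

section mfd

variable {n p : ℕ} {X : Type} [TopologicalSpace X] [ChartedSpace (Cm n) X] {e e' : Chart n X}
  {x : X} {Ω : Set X}

theorem tend_symm (hx : x ∈ e.source) : Tendsto e.symm (𝓝 (e x)) (𝓝 x) := by
  have h4 := (e.continuousAt_symm (e.map_source hx)).tendsto
  rwa [e.left_inv hx] at h4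

/-- properties of points near `x`, read in the chart `e` -/
theorem ev_chart (hx : At e x) {P : X → Prop} (h : ∀ᶠ y in 𝓝 x, P y) :
    ∀ᶠ z in 𝓝 (e x), At e (e.symm z) ∧ e (e.symm z) = z ∧ P (e.symm z) := by
  filter_upwards [(tend_symm hx.2).eventually h,
    e.open_target.mem_nhds (e.map_source hx.2)] with z h1 h2
  exact ⟨⟨hx.1, e.map_target h2⟩, e.right_inv h2, h1⟩

theorem ev_at (hx : At e x) : ∀ᶠ y in 𝓝 x, At e y := by
  filter_upwards [e.open_source.mem_nhds hx.2] with y hy using ⟨hx.1, hy⟩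

theorem at_self (x : X) : At (chartAt (Cm n) x) x := ⟨chart_mem_atlas _ x, mem_chart_source _ x⟩

theorem FOn.mono {Ω' : Set X} {η : Fa n p X} (h : FOn Ω η) (h' : Ω' ⊆ Ω) : FOn Ω' η :=
  ⟨fun e x a b => h.sm e x a (h' b), fun e e' x a b c => h.chg e e' x a b (h' c)⟩

theorem FOn.add {η ζ : Fa n p X} (h : FOn Ω η) (h' : FOn Ω ζ) : FOn Ω (η + ζ) :=
  ⟨fun e x a b => (h.sm e x a b).add (h'.sm e x a b), fun e e' x a b c => by
    rw [Pi.add_apply, Pi.add_apply, Pi.add_apply, Pi.add_apply, h.chg e e' x a b c,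
      h'.chg e e' x a b c]
    rfl⟩

theorem FOn.sub {η ζ : Fa n p X} (h : FOn Ω η) (h' : FOn Ω ζ) : FOn Ω (η - ζ) :=
  ⟨fun e x a b => (h.sm e x a b).sub (h'.sm e x a b), fun e e' x a b c => by
    rw [Pi.sub_apply, Pi.sub_apply, Pi.sub_apply, Pi.sub_apply, h.chg e e' x a b c,
      h'.chg e e' x a b c]
    rfl⟩

theorem FOn.zero : FOn Ω (0 : Fa n p X) :=
  ⟨fun _ _ _ _ => contDiffAt_const, fun _ _ _ _ _ _ => rfl⟩

theorem FOn.sum {α : Type} (s : Finset α) {η : α → Fa n p X} (h : ∀ a ∈ s, FOn Ω (η a)) :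
    FOn Ω (∑ a ∈ s, η a) := by
  classical
  induction s using Finset.induction_on with
  | empty => simpa using FOn.zero
  | insert a s ha ih =>
    rw [Finset.sum_insert ha]
    exact (h a (Finset.mem_insert_self _ _)).add
      (ih fun b hb => h b (Finset.mem_insert_of_mem hb))

/-- product with a function -/
def sF (c : X → ℂ) (η : Fa n p X) : Fa n p X := fun e z => c (e.symm z) • η e z

theorem sF_at (c : X → ℂ) (η : Fa n p X) (hx : At e x) : sF c η e (e x) = c x • η e (e x) := by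
  unfold sF; rw [e.left_inv hx.2]

theorem FOn.smul {η : Fa n p X} {c : X → ℂ} (hc : ∀ x ∈ Ω, Sm n c x) (h : FOn Ω η) :
    FOn Ω (sF c η) :=
  ⟨fun e x a b => ContDiffAt.fun_smul (hc x b e a) (h.sm e x a b), fun e e' x a b d => by
    rw [sF_at _ _ a, sF_at _ _ b, h.chg e e' x a b d]
    rfl⟩

/-- a property which is local -/
theorem FOn.of_loc {η : Fa n p X} (h : ∀ x ∈ Ω, ∃ ζ : Fa n p X, FOn {x} ζ ∧
    ∀ᶠ y in 𝓝 x, ∀ e, At e y → η e (e y) = ζ e (e y)) : FOn Ω η := by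
  refine ⟨fun e x a b => ?_, fun e e' x a b c => ?_⟩
  · obtain ⟨ζ, h1, h2⟩ := h x b
    refine (h1.sm e x a rfl).congr_of_eventuallyEq ?_
    filter_upwards [ev_chart a h2] with z ⟨k1, k2, k3⟩
    have := k3 e k1
    rwa [k2] at this
  · obtain ⟨ζ, h1, h2⟩ := h x c
    rw [h2.self_of_nhds e a, h2.self_of_nhds e' b, h1.chg e e' x a b rfl]

variable [IsManifold 𝓘(ℂ, Cm n) ω X]

theorem FOn.dA {η : Fa n p X} (hΩ : IsOpen Ω) (h : FOn Ω η) : FOn Ω (dA η) := by
  refine ⟨fun e x a b => dhL_sm contDiffAt_const (h.sm e x a b), fun e e' x a b c => ?_⟩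
  have hT := trans_an b a
  have hx : e' (e.symm (e x)) = e' x := by rw [e.left_inv a.2]
  have h1 := dhL_chg (F := fun z => e' (e.symm z)) (a := fun _ => 1) (φ := fun _ => 0)
    (φ' := fun _ => 0) (η := η e) (η' := η e') (z := e x) hT analyticAt_const one_ne_zero
    (differentiableAt_const _) (differentiableAt_const _) (by simp)
    (by rw [hx]; exact (h.sm e' x b c).differentiableAt (by simp)) (by
      filter_upwards [ev_chart a ((ev_at b).and (hΩ.mem_nhds c))] with z ⟨k1, k2, k3, k4⟩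
      have := h.chg e e' _ k1 k3 k4
      rw [k2] at this
      rw [this, one_smul])
  rw [hx, one_smul] at h1
  exact h1

/-- `∂h` -/
def D0 (h : X → ℂ) : Fa n 1 X := fun e z => o1 n (pL (fun y => h (e.symm y)) z)

theorem c1_D0 (h : X → ℂ) (e : Chart n X) (z : Cm n) (a : Fin n) :
    c1 (D0 h e z) a = dz a (fun y => h (e.symm y)) z := by
  unfold D0
  rw [c1_o1, pL_single, dz_eq_dzV]

theorem pL_chg {V : Type} [NormedAddCommGroup V] [NormedSpace ℂ V] {u : Cm n → V} (a : At e x)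
    (b : At e' x) (hu : DifferentiableAt ℝ u (e' x)) :
    pL (fun z => u (e' (e.symm z))) (e x) =
      (pL u (e' x)).comp (fderiv ℂ (fun z => e' (e.symm z)) (e x)) := by
  have hT := (trans_an b a).differentiableAt.hasFDerivAt
  have hx : e' (e.symm (e x)) = e' x := by rw [e.left_inv a.2]
  have h1 : HasW u (pL u (e' x)) (pB u (e' x)) (e' (e.symm (e x))) := by
    rw [hx]; exact hasW_of_diff hu
  exact (h1.comp_holo (F := fun z => e' (e.symm z)) hT).pL_eq

theorem FOn.D0 {h : X → ℂ} (hh : ∀ x ∈ Ω, Sm n h x) : FOn Ω (D0 (n := n) h) := by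
  refine ⟨fun e x a b => clm_sm (o1 n).toContinuousLinearEquiv.toContinuousLinearMap
    (pL_sm (hh x b e a)), fun e e' x a b c => ?_⟩
  unfold Ln.D0
  rw [o1_comp, ← pL_chg a b ((hh x c e' b).differentiableAt (by simp))]
  congr 1
  have h1 : (fun y => h (e.symm y)) =ᶠ[𝓝 (e x)] fun z => h (e'.symm (e' (e.symm z))) := by
    filter_upwards [ev_chart a (ev_at b)] with z ⟨_, _, k3⟩
    rw [e'.left_inv k3.2]
  ext v
  simp only [pL_apply, dzV, h1.fderiv_eq]

theorem Sm.of_chart {h : X → ℂ} (a : At e x)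
    (hh : ContDiffAt ℝ ∞ (fun z => h (e.symm z)) (e x)) : Sm n h x := fun e' b => by
  have k := ((trans_an a b).contDiffAt (n := ∞)).restrict_scalars ℝ
  have h1 : ContDiffAt ℝ ∞ (fun z => h (e.symm z)) (e (e'.symm (e' x))) := by
    rwa [e'.left_inv b.2]
  refine (h1.comp (f := fun z => e (e'.symm z)) (e' x) k).congr_of_eventuallyEq ?_
  filter_upwards [ev_chart b (ev_at a)] with z ⟨_, _, k3⟩
  simp [e.left_inv k3.2]

omit [IsManifold 𝓘(ℂ, Cm n) ω X] in
theorem Sm.cont {h : X → ℂ} (hh : Sm n h x) : ContinuousAt h x := by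
  have a := at_self (n := n) x
  have h1 := (hh _ a).continuousAt.comp ((chartAt (Cm n) x).continuousAt a.2)
  refine h1.congr ?_
  filter_upwards [ev_at a] with y hy
  simp [(chartAt (Cm n) x).left_inv hy.2]

omit [IsManifold 𝓘(ℂ, Cm n) ω X] in
theorem Sm.congr {h g : X → ℂ} (hh : Sm n h x) (hg : ∀ᶠ y in 𝓝 x, g y = h y) : Sm n g x :=
  fun e a => (hh e a).congr_of_eventuallyEq ((tend_symm a.2).eventually hg)

omit [IsManifold 𝓘(ℂ, Cm n) ω X] in
theorem Sm.of_hol {h : X → ℂ} (hh : Hol n h x) : Sm n h x :=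
  fun e a => ((hh e a).contDiffAt (n := ∞)).restrict_scalars ℝ

end mfd

section int

variable {n : ℕ} {V : Type} [NormedAddCommGroup V]

theorem l1_mono {S S' : Set (Cm n)} (h : S ⊆ S') (f : Cm n → V) : l1 S f ≤ l1 S' f :=
  lintegral_mono_set h

theorem l1_le {W : Type} [NormedAddCommGroup W] {S : Set (Cm n)} (hS : MeasurableSet S)
    {f : Cm n → V} {g : Cm n → W} (h : ∀ z ∈ S, ‖f z‖ ≤ ‖g z‖) : l1 S f ≤ l1 S g :=
  setLIntegral_mono' hS fun z hz => by
    rw [← ofReal_norm_eq_enorm, ← ofReal_norm_eq_enorm]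
    exact ENNReal.ofReal_le_ofReal (h z hz)

theorem l1_add_le {S : Set (Cm n)} (hS : MeasurableSet S) {f g : Cm n → V}
    (hf : ContinuousOn f S) : l1 S (fun z => f z + g z) ≤ l1 S f + l1 S g := by
  unfold l1
  rw [← lintegral_add_left' (hf.enorm.aemeasurable hS)]
  exact lintegral_mono fun z => enorm_add_le _ _

theorem tend_le {α : Type} {l : Filter α} {f g : α → ℝ≥0∞} (h : ∀ k, f k ≤ g k)
    (hg : Tendsto g l (𝓝 0)) : Tendsto f l (𝓝 0) :=
  tendsto_of_tendsto_of_tendsto_of_le_of_le tendsto_const_nhds hg (fun _ => zero_le) h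

theorem eq_zero_of_l1 {S : Set (Cm n)} {z : Cm n} (hS : S ∈ 𝓝 z) {f : Cm n → V}
    (hf : ContinuousAt f z) (h : l1 S f = 0) : f z = 0 := by
  by_contra h0
  have hp : 0 < ‖f z‖ / 2 := half_pos (norm_pos_iff.2 h0)
  have h1 : ∀ᶠ y in 𝓝 z, ‖f z‖ / 2 < ‖f y‖ :=
    hf.norm.eventually (lt_mem_nhds (half_lt_self (norm_pos_iff.2 h0)))
  obtain ⟨r, hr, hb⟩ := Metric.mem_nhds_iff.1 (inter_mem hS h1)
  have h2 : l1 (ball z r) (fun _ => ‖f z‖ / 2) ≤ 0 := by
    rw [← h]
    refine le_trans (l1_le measurableSet_ball fun y hy => ?_) (l1_mono (fun y hy => (hb hy).1) f)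
    rw [Real.norm_of_nonneg hp.le]
    exact (hb hy).2.le
  unfold l1 at h2
  rw [setLIntegral_const, nonpos_iff_eq_zero, mul_eq_zero] at h2
  rcases h2 with h2 | h2
  · exact hp.ne' (by simpa using h2)
  · exact (measure_ball_pos volume z hr).ne' h2

end int

/-- change of the chart in `L¹` estimates -/
theorem l1_chg {n : ℕ} {X : Type} [TopologicalSpace X] [ChartedSpace (Cm n) X]
    [IsManifold 𝓘(ℂ, Cm n) ω X] {e e' : Chart n X} {x : X} (a : At e x) (b : At e' x)
    {S' : Set (Cm n)} (hS : S' ∈ 𝓝 (e' x)) : ∃ S ∈ 𝓝 (e x), ∃ C : ℝ≥0∞, C ≠ ⊤ ∧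
      ∀ g : Cm n → ℝ≥0∞, ∫⁻ z in S, g (e' (e.symm z)) ≤ C * ∫⁻ z in S', g z := by
  set T : Cm n → Cm n := fun z => e' (e.symm z) with hT
  have hx : T (e x) = e' x := by simp [hT, e.left_inv a.2]
  have h1 : ContDiffAt ℝ ∞ T (e x) := ((trans_an b a).contDiffAt (n := ∞)).restrict_scalars ℝ
  have h2 : ContDiffAt ℝ ∞ (fun z => e (e'.symm z)) (T (e x)) := by
    rw [hx]; exact ((trans_an a b).contDiffAt (n := ∞)).restrict_scalars ℝ
  have hd : (fderiv ℝ T (e x)).det ≠ 0 := by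
    have h3 := (h2.differentiableAt (by simp)).hasFDerivAt.comp (e x)
      (h1.differentiableAt (by simp)).hasFDerivAt
    have h4 : ((fun z => e (e'.symm z)) ∘ T) =ᶠ[𝓝 (e x)] id := by
      filter_upwards [ev_chart a (ev_at b)] with z ⟨_, k2, k3⟩
      simp [hT, e'.left_inv k3.2, k2]
    have h5 := (h3.congr_of_eventuallyEq h4.symm).unique (hasFDerivAt_id _)
    intro h0
    have h6 := congrArg ContinuousLinearMap.det h5
    unfold ContinuousLinearMap.det at h6 h0
    rw [ContinuousLinearMap.toLinearMap_comp, LinearMap.det_comp, h0] at h6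
    simp at h6
  have hc : ContinuousAt (fun z => |(fderiv ℝ T z).det|) (e x) :=
    (ContinuousLinearMap.continuous_det.continuousAt.comp
      ((h1.fderiv_right (m := 0) (by simp)).continuousAt)).abs
  set c := |(fderiv ℝ T (e x)).det| / 2 with hc'
  have hc0 : 0 < c := half_pos (abs_pos.2 hd)
  have h7 : ∀ᶠ z in 𝓝 (e x), c < |(fderiv ℝ T z).det| :=
    hc.eventually (lt_mem_nhds (half_lt_self (abs_pos.2 hd)))
  have h8 : ∀ᶠ z in 𝓝 (e x), T z ∈ S' := h1.continuousAt.eventually (by rwa [hx])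
  have h9 : ∀ᶠ z in 𝓝 (e x), DifferentiableAt ℝ T z :=
    ((h1.of_le (m := 1) (by simp)).eventually (by simp)).mono fun z hz =>
      hz.differentiableAt (by simp)
  obtain ⟨r, hr, hb⟩ := Metric.eventually_nhds_iff_ball.1
    (h7.and (h8.and (h9.and (ev_chart a (ev_at b)))))
  refine ⟨ball (e x) r, ball_mem_nhds _ hr, (ENNReal.ofReal c)⁻¹,
    ENNReal.inv_ne_top.2 (by simpa using hc0), fun g => ?_⟩
  have hinj : InjOn T (ball (e x) r) := fun z hz w hw h => by
    obtain ⟨-, -, -, -, k2, k3⟩ := hb z hz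
    obtain ⟨-, -, -, -, m2, m3⟩ := hb w hw
    rw [← k2, ← m2, e'.injOn k3.2 m3.2 h]
  have key := lintegral_image_eq_lintegral_abs_det_fderiv_mul volume measurableSet_ball
    (fun z hz => (hb z hz).2.2.1.hasFDerivAt.hasFDerivWithinAt) hinj g
  have h10 : ENNReal.ofReal c * ∫⁻ z in ball (e x) r, g (T z) ≤ ∫⁻ z in S', g z := by
    refine le_trans ?_ (lintegral_mono_set (image_subset_iff.2 fun z hz => (hb z hz).2.1))
    rw [key, ← lintegral_const_mul' _ _ ENNReal.ofReal_ne_top]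
    refine setLIntegral_mono' measurableSet_ball fun z hz => ?_
    gcongr
    exact (hb z hz).1.le
  calc ∫⁻ z in ball (e x) r, g (T z)
      = (ENNReal.ofReal c)⁻¹ * (ENNReal.ofReal c * ∫⁻ z in ball (e x) r, g (T z)) := by
        rw [← mul_assoc, ENNReal.inv_mul_cancel (by simpa using hc0) ENNReal.ofReal_ne_top,
          one_mul]
    _ ≤ _ := by gcongr

end Vale.Agent.P277Z.Ln
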