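import Vale.Agent.P277Z.Spec2
import Vale.Agent.P277Z.Van.Defs
import Vale.Agent.P284.H608.K.Eng
import Vale.Agent.P284.H451.K1b

/-!
# P277Z, block LN (step 6a): line bundles near a fibre with given restrictions. Statements.
-/

set_option linter.all false

open scoped Manifold ContDiff Topology ComplexConjugate ComplexOrder ENNReal
open Set Filter MeasureTheory Metric
open Vale.Agent.P272.K Vale.Agent.P284.H608.K
open Vale.Agent.P285.H281.FD (Bd IsLB Flat)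
open Vale.Agent.P301.H599 (Fm)
open Vale.Agent.P277Z.Van (SmOn KahOn)

noncomputable section

namespace Vale.Agent.P277Z.Ln

/-! ### Local analysis -/

/-- the `L¹` norm on `S` -/
def l1 {n : ℕ} {V : Type} [NormedAddCommGroup V] (S : Set (Cm n)) (f : Cm n → V) : ℝ≥0∞ :=
  ∫⁻ z in S, ‖f z‖ₑ

/-- **DOL**: approximate solutions of `∂u = θ` on a polydisc -/
def StDol : Prop :=
  ∀ (n : ℕ) (c : Cm n) (R : ℝ), 0 < R → ∀ θ : ℕ → Cm n → Fin n → ℂ,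
    (∀ k, ∀ z ∈ ball c R, ContDiffAt ℝ ∞ (θ k) z) →
    Tendsto (fun q : ℕ × ℕ => l1 (ball c R) (θ q.1 - θ q.2)) atTop (𝓝 0) →
    (∀ a b, Tendsto (fun k => l1 (ball c R) fun z =>
      dz a (fun y => θ k y b) z - dz b (fun y => θ k y a) z) atTop (𝓝 0)) →
    ∃ u : ℕ → Cm n → ℂ, (∀ k, ∀ z ∈ ball c (R / 2), ContDiffAt ℝ ∞ (u k) z) ∧
      Tendsto (fun q : ℕ × ℕ => l1 (ball c (R / 2)) (u q.1 - u q.2)) atTop (𝓝 0) ∧
      ∀ a, Tendsto (fun k => l1 (ball c (R / 2)) fun z => dz a (u k) z - θ k z a) atTop (𝓝 0)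

/-- **WEYL**: the limit of approximate solutions of `∂h = q` is smooth -/
def StWeyl : Prop :=
  ∀ (n : ℕ) (V : Set (Cm n)), IsOpen V → ∀ (h : ℕ → Cm n → ℂ) (q : Cm n → Fin n → ℂ),
    (∀ k, ∀ z ∈ V, ContDiffAt ℝ ∞ (h k) z) →
    (∀ z ∈ V, ∃ l : Cm n → ℂ, ∀ᶠ y in 𝓝 z, ContDiffAt ℝ ∞ l y ∧ ∀ a, dz a l y = q y a) →
    (∀ z ∈ V, ∃ S ∈ 𝓝 z, Tendsto (fun p : ℕ × ℕ => l1 S (h p.1 - h p.2)) atTop (𝓝 0) ∧
      ∀ a, Tendsto (fun k => l1 S fun y => dz a (h k) y - q y a) atTop (𝓝 0)) →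
    ∃ H : Cm n → ℂ, ∀ z ∈ V, ContDiffAt ℝ ∞ H z ∧ (∀ a, dz a H z = q z a) ∧
      ∃ S ∈ 𝓝 z, Tendsto (fun k => l1 S (h k - H)) atTop (𝓝 0)

/-! ### The engine -/

/-- the a priori inequality in degree `p + 1` -/
def Apr {n : ℕ} {M : Type} [TopologicalSpace M] [MeasurableSpace M] (K : KA n M) (p : ℕ) : Prop :=
  ∃ c : ℝ, 0 < c ∧ ∀ η : K.Fm (p + 1), K.Test η → c * K.nq η ≤ K.nq (K.dh η) + K.nq (K.S η)

/-- **SOLK**: approximate solutions of `∂_h u = f` -/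
def StSolK : Prop :=
  ∀ (n : ℕ) (M : Type) [TopologicalSpace M] [T2Space M] [MeasurableSpace M] [BorelSpace M]
    (K : KA n M), Nonempty K.Cut → ∀ p : ℕ, Apr K p → ∀ f : ℕ → K.Fm (p + 1),
    (∀ k, K.IsForm (f k) ∧ K.Smooth (f k) ∧ K.nl (f k) < ⊤) →
    Tendsto (fun q : ℕ × ℕ => K.nl (f q.1 - f q.2)) atTop (𝓝 0) →
    (∀ ψ : K.Fm (p + 2), K.Test ψ → Tendsto (fun k => K.ip (f k) (K.S ψ)) atTop (𝓝 0)) →
    ∃ u : ℕ → K.Fm p, (∀ k, K.Test (u k)) ∧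
      Tendsto (fun q : ℕ × ℕ => K.nl (u q.1 - u q.2)) atTop (𝓝 0) ∧
      Tendsto (fun k => K.nl (K.dh (u k) - f k)) atTop (𝓝 0)

/-- **BK2**: the a priori inequality if `K⁻¹ ⊗ L⁻¹` is positive -/
def StBK2 : Prop :=
  ∀ (M : Type) [TopologicalSpace M] [T2Space M] [MeasurableSpace M] [BorelSpace M]
    (K : KA 4 M), (∀ i, ∀ z ∈ (K.e i).target,
      (cHess (fun y => -K.φ i y - Real.log (K.w i y).det.re) z - K.w i z).PosSemidef) → Apr K 1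

section mfd

variable {n p : ℕ} {X : Type} [TopologicalSpace X]

/-- families of `(p,0)`-forms in charts -/
abbrev Fa (n p : ℕ) (X : Type) [TopologicalSpace X] : Type := Chart n X → Cm n → Af n p

/-- `∂η` -/
def dA (η : Fa n p X) : Fa n (p + 1) X := fun e z => dhL (fun _ => 0) (η e) z

variable [ChartedSpace (Cm n) X]

/-- `η` is a smooth `(p,0)`-form on `Ω` -/
structure FOn (Ω : Set X) (η : Fa n p X) : Prop where
  sm : ∀ e x, At e x → x ∈ Ω → ContDiffAt ℝ ∞ (η e) (e x)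
  chg : ∀ e e' x, At e x → At e' x → x ∈ Ω → η e (e x) =
    (η e' (e' x)).compContinuousLinearMap (fderiv ℂ (fun z => e' (e.symm z)) (e x))

/-- `η` vanishes outside of a compact subset of `Ω` -/
def Cs (Ω : Set X) (η : Fa n p X) : Prop :=
  ∃ C, IsCompact C ∧ C ⊆ Ω ∧ ∀ e x, At e x → x ∉ C → η e (e x) = 0

/-- `|η|²_w` -/
def nm (w : Fm n X) (η : Fa n p X) (x : X) : ℝ :=
  (hn (w (chartAt (Cm n) x) (chartAt (Cm n) x x)) (η (chartAt (Cm n) x) (chartAt (Cm n) x x))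
    (η (chartAt (Cm n) x) (chartAt (Cm n) x x))).re

/-- `D` is a smooth positive density on `Ω` -/
structure Dens (Ω : Set X) (D : Chart n X → Cm n → ℝ) : Prop where
  pos : ∀ e x, At e x → x ∈ Ω → 0 < D e (e x)
  sm : ∀ e x, At e x → x ∈ Ω → ContDiffAt ℝ ∞ (D e) (e x)
  chg : ∀ e e' x, At e x → At e' x → x ∈ Ω →
    D e (e x) = ‖(jacM e e' x).det‖ ^ 2 * D e' (e' x)

/-- `ν` is on `Ω` the measure of the density `D` -/
def IsMs [MeasurableSpace X] (Ω : Set X) (D : Chart n X → Cm n → ℝ) (ν : Measure X) : Prop :=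
  ∀ e ∈ atlas (Cm n) X, ∀ f : X → ℝ≥0∞, Measurable f → (∀ x, x ∉ e.source ∩ Ω → f x = 0) →
    ∫⁻ x, f x ∂ν = ∫⁻ z in e.target, f (e.symm z) * ENNReal.ofReal (D e z)

/-- the square of the `L²` norm -/
def N2 [MeasurableSpace X] (ν : Measure X) (Ω : Set X) (w : Fm n X) (η : Fa n p X) : ℝ≥0∞ :=
  ∫⁻ x in Ω, ENNReal.ofReal (nm w η x) ∂ν

/-- `w` is complete on `Ω` -/
def Cpl (Ω : Set X) (w : Fm n X) : Prop :=
  ∃ τ : X → ℝ, SmOn (d := n) Ω τ ∧ (∀ c : ℝ, IsCompact {x | x ∈ Ω ∧ τ x ≤ c}) ∧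
    ∀ e x, At e x → x ∈ Ω → (w e (e x) - Matrix.of fun j k =>
      dz j (fun z => (τ (e.symm z) : ℂ)) (e x) *
        conj (dz k (fun z => (τ (e.symm z) : ℂ)) (e x))).PosSemidef

/-- first curvature condition -/
def CurA (Ω : Set X) (w : Fm n X) (D : Chart n X → Cm n → ℝ) : Prop :=
  ∀ e x, At e x → x ∈ Ω → (cHess (fun z => -Real.log (D e z)) (e x) - w e (e x)).PosSemidef

/-- second curvature condition -/
def CurB (Ω : Set X) (w : Fm n X) (D : Chart n X → Cm n → ℝ) : Prop :=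
  ∃ c : ℝ, 0 < c ∧ ∀ e x, At e x → x ∈ Ω → ∀ A : Af n 2, c * (hn (w e (e x)) A A).re ≤
    (Ad (w e (e x)) (cHess (fun z => Real.log (D e z) - Real.log (w e z).det.re) (e x)) A).re

/-- `g → 0` in `L¹` near the points of `U` -/
def LocL1 {α : Type} (l : Filter α) (U : Set X) (g : α → Fa n p X) : Prop :=
  ∀ e x, At e x → x ∈ U → ∃ S ∈ 𝓝 (e x), Tendsto (fun k => l1 S (g k e)) l (𝓝 0)

/-- `g → 0` in `L²` near the points of `U` -/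
def LocL2 {α : Type} (l : Filter α) (U : Set X) (g : α → Fa n p X) : Prop :=
  ∀ e x, At e x → x ∈ U → ∃ S ∈ 𝓝 (e x),
    Tendsto (fun k => ∫⁻ z in S, ‖g k e z‖ₑ ^ 2) l (𝓝 0)

end mfd

/-- **MS**: the measure of a density -/
def StMs : Prop :=
  ∀ (n : ℕ) (X : Type) [TopologicalSpace X] [T2Space X] [SecondCountableTopology X]
    [ChartedSpace (Cm n) X] [IsManifold 𝓘(ℂ, Cm n) ω X] [MeasurableSpace X] [BorelSpace X]
    (Ω : Set X), IsOpen Ω → ∀ D : Chart n X → Cm n → ℝ, Dens Ω D → ∃ ν, IsMs Ω D ν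

/-- **SOL**: approximate solutions of `∂u = f` on an open set -/
def StSol : Prop :=
  ∀ (X : Type) [TopologicalSpace X] [T2Space X] [SecondCountableTopology X]
    [ChartedSpace (Cm 4) X] [IsManifold 𝓘(ℂ, Cm 4) ω X] [MeasurableSpace X] [BorelSpace X]
    (Ω : Set X), IsOpen Ω → ∀ w : Fm 4 X, KahOn Ω w → Cpl Ω w →
    ∀ (D : Chart 4 X → Cm 4 → ℝ) (ν : Measure X), Dens Ω D → IsMs Ω D ν →
    (CurA Ω w D ∨ CurB Ω w D) → ∀ f : ℕ → Fa 4 2 X,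
    (∀ k, FOn Ω (f k) ∧ N2 ν Ω w (f k) < ⊤) →
    Tendsto (fun q : ℕ × ℕ => N2 ν Ω w (f q.1 - f q.2)) atTop (𝓝 0) →
    LocL2 atTop Ω (fun k => dA (f k)) →
    ∃ u : ℕ → Fa 4 1 X, (∀ k, FOn univ (u k) ∧ Cs Ω (u k)) ∧
      Tendsto (fun q : ℕ × ℕ => N2 ν Ω w (u q.1 - u q.2)) atTop (𝓝 0) ∧
      Tendsto (fun k => N2 ν Ω w (dA (u k) - f k)) atTop (𝓝 0)

/-- The data for the vanishing of `H²(O)` near the fibre: `E` has normal crossings, `-∑ c_k E_k` is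
positive, `E ∩ {t = 0} = F`, and `η` is a section of `m K` without zeros off `E`. -/
structure RData {N : ℕ} (G : Geo 4 N) where
  E : Set G.W
  ψ : G.W → ℝ
  t : G.W → ℂ
  m : ℕ
  η : Chart 4 G.W → G.W → ℂ
  mpos : 1 ≤ m
  loc : ∀ x ∈ G.F, ∃ (z : Fin 4 → G.W → ℂ) (c : Fin 4 → ℝ) (φ : G.W → ℝ),
    (∀ j, Hol 4 (z j) x) ∧ (∀ e, At e x → jd z e x ≠ 0) ∧ (∀ j, 0 ≤ c j) ∧
    ∀ᶠ y in 𝓝 x, Spsh 4 φ y ∧ (y ∈ E ↔ ∃ j, c j ≠ 0 ∧ z j y = 0) ∧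
      (y ∉ E → ψ y = ∑ j, c j * Real.log (‖z j y‖ ^ 2) + φ y)
  thol : ∀ x ∈ G.F, Hol 4 t x ∧ t x = 0
  tE : ∀ᶠ y in 𝓝ˢ G.F, y ∈ E → t y = 0 → y ∈ G.F
  sec : G.Sec ((Bd.can 4 G.W).pow m) η
  nz : ∀ᶠ y in 𝓝ˢ G.F, y ∉ E → ∀ e, At e y → η e y ≠ 0

/-- **R2** -/
def StR2 : Prop :=
  ∀ (N : ℕ) (G : Geo 4 N) (_ : RData G) (V : Set G.W), IsOpen V → G.F ⊆ V → ∀ f : Fa 4 2 G.W,
    FOn V f → (∀ e x, At e x → x ∈ V → dA f e (e x) = 0) →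
    ∃ (U : Set G.W) (γ : ℕ → Fa 4 1 G.W), IsOpen U ∧ G.F ⊆ U ∧ U ⊆ V ∧ (∀ k, FOn U (γ k)) ∧
      LocL1 atTop U (fun q : ℕ × ℕ => γ q.1 - γ q.2) ∧ LocL1 atTop U fun k => dA (γ k) - f

/-! ### Continuous and smooth line bundles -/

/-- pull back -/
def pl {X Y : Type} (f : Y → X) (L : Bd X) : Bd Y :=
  ⟨L.ι, fun i => f ⁻¹' L.U i, fun i j y => L.g i j (f y)⟩

/-- the trivial bundle -/
def triv (X : Type) : Bd X := ⟨Unit, fun _ => univ, fun _ _ _ => 1⟩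

/-- the dual bundle -/
def dual {X : Type} (L : Bd X) : Bd X := ⟨L.ι, L.U, fun i j x => (L.g i j x)⁻¹⟩

section top

variable {X : Type} [TopologicalSpace X]

/-- `L` is a continuous line bundle on `A` -/
structure CB (A : Set X) (L : Bd X) : Prop where
  isOpen : ∀ i, IsOpen (L.U i)
  cover : ∀ x ∈ A, ∃ i, x ∈ L.U i
  cont : ∀ i j, ContinuousOn (L.g i j) (A ∩ L.U i ∩ L.U j)
  ne_zero : ∀ i j, ∀ x ∈ A, x ∈ L.U i → x ∈ L.U j → L.g i j x ≠ 0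
  cocycle : ∀ i j k, ∀ x ∈ A, x ∈ L.U i → x ∈ L.U j → x ∈ L.U k →
    L.g i j x * L.g j k x = L.g i k x

/-- `u` is an isomorphism of `L'` onto `L` over `A`, as line bundles without topology -/
structure Rel (A : Set X) (L L' : Bd X) (u : L.ι → L'.ι → X → ℂ) : Prop where
  ne_zero : ∀ i j, ∀ x ∈ A, x ∈ L.U i → x ∈ L'.U j → u i j x ≠ 0
  chg : ∀ i i' j j', ∀ x ∈ A, x ∈ L.U i → x ∈ L.U i' → x ∈ L'.U j → x ∈ L'.U j' →
    u i j x * L'.g j j' x = L.g i i' x * u i' j' x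

/-- `L` and `L'` are isomorphic over `A` as continuous line bundles -/
def Iso (A : Set X) (L L' : Bd X) : Prop :=
  ∃ u, Rel A L L' u ∧ ∀ i j, ContinuousOn (u i j) (A ∩ L.U i ∩ L'.U j)

variable (n : ℕ) [ChartedSpace (Cm n) X]

/-- `a` is smooth at `x` -/
def Sm (a : X → ℂ) (x : X) : Prop :=
  ∀ e : Chart n X, At e x → ContDiffAt ℝ ∞ (fun z => a (e.symm z)) (e x)

/-- `L` is a smooth line bundle near `A` -/
structure SB (A : Set X) (L : Bd X) : Prop where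
  isOpen : ∀ i, IsOpen (L.U i)
  cover : ∀ x ∈ A, ∃ i, x ∈ L.U i
  sm : ∀ i j x, x ∈ L.U i → x ∈ L.U j → Sm n (L.g i j) x
  ne_zero : ∀ i j x, x ∈ L.U i → x ∈ L.U j → L.g i j x ≠ 0
  cocycle : ∀ i j k x, x ∈ L.U i → x ∈ L.U j → x ∈ L.U k → L.g i j x * L.g j k x = L.g i k x

/-- `L` and `L'` are isomorphic over `V` as smooth line bundles -/
def SIso (V : Set X) (L L' : Bd X) : Prop :=
  ∃ u, Rel V L L' u ∧ ∀ i j, ∀ x ∈ V, x ∈ L.U i → x ∈ L'.U j → Sm n (u i j) x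

end top

/-- **GL**: gluing along double curves -/
def StGl : Prop :=
  ∀ (X : Type) [TopologicalSpace X] [T2Space X] (F : Set X) (κ : Type) [Finite κ] (E : κ → Type)
    [∀ k, TopologicalSpace (E k)] (ι : ∀ k, E k → X) (L : ∀ k, Bd (E k)),
    (∀ k, Continuous (ι k)) → (∀ k, Function.Injective (ι k)) → (∀ k, IsCompact (ι k ⁻¹' F)) →
    (∀ x ∈ F, ∃ k, x ∈ range (ι k)) → (∀ k, CB (ι k ⁻¹' F) (L k)) →
    (∀ k m j, k ≠ m → m ≠ j → k ≠ j → (F ∩ range (ι k) ∩ range (ι m) ∩ range (ι j)).Finite) →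
    (∀ k m, k ≠ m → Iso {q : E k × E m | ι k q.1 = ι m q.2 ∧ ι k q.1 ∈ F}
      (pl Prod.fst (L k)) (pl Prod.snd (L m))) →
    ∃ L₀ : Bd X, CB F L₀ ∧ ∀ k, Iso (ι k ⁻¹' F) (pl (ι k) L₀) (L k)

/-- **SM**: smoothing -/
def StSm : Prop :=
  ∀ (n : ℕ) (X : Type) [TopologicalSpace X] [T2Space X] [SecondCountableTopology X]
    [ChartedSpace (Cm n) X] [IsManifold 𝓘(ℂ, Cm n) ω X] (F : Set X), IsCompact F →
    ∀ L : Bd X, CB F L → ∃ L' : Bd X, SB n F L' ∧ Iso F L' L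

/-- **G3**: a continuous isomorphism over a compact set gives a smooth one near it -/
def StG3 : Prop :=
  ∀ (n : ℕ) (X : Type) [TopologicalSpace X] [T2Space X] [SecondCountableTopology X]
    [ChartedSpace (Cm n) X] [IsManifold 𝓘(ℂ, Cm n) ω X] (F : Set X), IsCompact F →
    ∀ L L' : Bd X, SB n F L → SB n F L' → Iso F L L' →
    ∃ V, IsOpen V ∧ F ⊆ V ∧ SIso n V L L'

/-- **TORS**: a power of a flat line bundle is trivial -/
def StTors : Prop :=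
  ∀ (n : ℕ) (X : Type) [TopologicalSpace X] [T2Space X] [CompactSpace X]
    [ChartedSpace (Cm n) X] [IsManifold 𝓘(ℂ, Cm n) ω X] (L : Bd X), IsLB n L → Flat n L →
    ∃ k : ℕ, 1 ≤ k ∧ Iso univ (L.pow k) (triv X)

/-- **HOL**: smooth line bundles near the fibre are holomorphic -/
def StHol : Prop :=
  ∀ (N : ℕ) (G : Geo 4 N) (_ : RData G) (L₀ : Bd G.W), SB 4 G.F L₀ →
    ∃ L : Bd G.W, G.LB L ∧ Iso G.F L L₀

/-- **LB** (step 6a) -/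
def StLB : Prop :=
  ∀ (N : ℕ) (G : Geo 4 N) (_ : RData G) (κ : Type) [Finite κ] (E : κ → Type)
    [∀ k, TopologicalSpace (E k)] [∀ k, T2Space (E k)] [∀ k, SecondCountableTopology (E k)]
    [∀ k, ChartedSpace (Cm 3) (E k)] [∀ k, IsManifold 𝓘(ℂ, Cm 3) ω (E k)]
    (ι : ∀ k, E k → G.W) (L : ∀ k, Bd (E k)),
    (∀ k, Continuous (ι k)) → (∀ k, Function.Injective (ι k)) →
    (∀ k, IsCompact (ι k ⁻¹' G.F)) →
    (∀ k y a, Hol 4 a (ι k y) → Hol 3 (fun z => a (ι k z)) y) →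
    (∀ x ∈ G.F, ∃ k, x ∈ range (ι k)) → (∀ k, SB 3 (ι k ⁻¹' G.F) (L k)) →
    (∀ k m j, k ≠ m → m ≠ j → k ≠ j →
      (G.F ∩ range (ι k) ∩ range (ι m) ∩ range (ι j)).Finite) →
    (∀ k m, k ≠ m → Iso {q : E k × E m | ι k q.1 = ι m q.2 ∧ ι k q.1 ∈ G.F}
      (pl Prod.fst (L k)) (pl Prod.snd (L m))) →
    ∃ L₁ : Bd G.W, G.LB L₁ ∧
      ∀ k, ∃ V, IsOpen V ∧ ι k ⁻¹' G.F ⊆ V ∧ SIso 3 V (pl (ι k) L₁) (L k)

end Vale.Agent.P277Z.Ln
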