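import Vale.Agent.P277Z.Ln.Defs
import Vale.Agent.P277Z.Ln.Dol0

/-!
# P277Z, block LN: rows DOL and WEYL
-/

open Filter Topology MeasureTheory Set Metric
open scoped ContDiff ENNReal

noncomputable section

namespace Vale.Agent.P277Z.Ln

open Vale.Agent.P272.K Vale.Agent.P277.H60.L

namespace Dol

variable {n : ℕ}

theorem enorm_cj (x : ℂ) : ‖cj x‖ₑ = ‖x‖ₑ := by
  rw [← ofReal_norm, ← ofReal_norm, Complex.norm_conj]

theorem cj_cj (x : ℂ) : cj (cj x) = x := Complex.conj_conj x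

theorem enorm_cj_sub (x y : ℂ) : ‖cj x - cj y‖ₑ = ‖x - y‖ₑ := by
  rw [← map_sub, enorm_cj]

theorem smooth_cj {f : Cm n → ℂ} {z : Cm n} (hf : ContDiffAt ℝ ∞ f z) :
    ContDiffAt ℝ ∞ (fun y => cj (f y)) z :=
  Complex.conjCLE.contDiff.contDiffAt.comp z hf

end Dol

open Dol

theorem stDol : StDol := by
  intro n c R hR θ hθ hc hd
  have h1 : ∀ k i, Dol.Sm (ball c R) fun y => θ k y i := fun k i z hz =>
    contDiffAt_pi.1 (hθ k z hz) i
  obtain ⟨u, hu, h2, h3⟩ := dol c (half_pos hR) (half_lt_self hR) (fun k i y => cj (θ k y i))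
    (fun k i z hz => smooth_cj (h1 k i z hz))
    (fun i => Z.of_le hc ENNReal.one_ne_top fun p => by
      rw [one_mul]
      refine lintegral_mono fun z => ?_
      rw [enorm_cj_sub, ← ofReal_norm, ← ofReal_norm]
      exact ENNReal.ofReal_le_ofReal (norm_le_pi_norm ((θ p.1 - θ p.2) z) i))
    fun a b => Z.congr measurableSet_ball (hd a b) fun k z hz => by
      rw [dzb_cj (diff_of_smooth (h1 k b z hz)), dzb_cj (diff_of_smooth (h1 k a z hz)),
        enorm_cj_sub]
  refine ⟨fun k y => cj (u k y), fun k z _ => smooth_cj (hu k).contDiffAt,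
    Z.congr (g := fun (p : ℕ × ℕ) z => cj (u p.1 z) - cj (u p.2 z)) measurableSet_ball h2
      fun p z _ => enorm_cj_sub _ _, fun a => Z.congr
      (g := fun k z => dz a (fun y => cj (u k y)) z - θ k z a) measurableSet_ball (h3 a)
      fun k z _ => ?_⟩
  rw [dz_cj ((hu k).differentiable (by simp) z), ← enorm_cj_sub, cj_cj]

theorem stWeyl : StWeyl := by
  intro n V hV h q hh hl hS
  obtain ⟨H, hH⟩ := weyl hV (h := fun k y => cj (h k y)) (q := fun a y => cj (q y a))
    (fun k z hz => smooth_cj (hh k z hz))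
    (fun z hz => by
      obtain ⟨l, hl⟩ := hl z hz
      exact ⟨fun y => cj (l y), hl.mono fun y hy =>
        ⟨smooth_cj hy.1, fun a => by rw [dzb_cj (diff_of_smooth hy.1), hy.2]⟩⟩)
    fun z hz => by
      obtain ⟨S, hS, h1, h2⟩ := hS z hz
      obtain ⟨O, hO, hO', hz'⟩ := _root_.mem_nhds_iff.1 (inter_mem hS (hV.mem_nhds hz))
      have h3 : O ⊆ S := hO.trans inter_subset_left
      refine ⟨O, hO'.mem_nhds hz', (Z.mono (f := fun p : ℕ × ℕ => h p.1 - h p.2) h1 h3).congr
        hO'.measurableSet fun p y _ => enorm_cj_sub _ _, fun a =>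
        (Z.mono (f := fun k y => dz a (h k) y - q y a) (h2 a) h3).congr hO'.measurableSet
          fun k y hy => ?_⟩
      rw [dzb_cj (diff_of_smooth (hh k y (hO hy).2)), enorm_cj_sub]
  refine ⟨fun y => cj (H y), fun z hz => ?_⟩
  obtain ⟨h1, h2, S, hS, h3⟩ := hH z hz
  refine ⟨smooth_cj h1, fun a => by rw [dz_cj (diff_of_smooth h1), h2, cj_cj], S, hS,
    Tendsto.congr (fun k => lintegral_congr fun y => ?_) h3⟩
  rw [← enorm_cj_sub, cj_cj]
  rfl

end Vale.Agent.P277Z.Ln
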