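import Mathlib

/-!
# P277Z, block LN: gluing of frames on finitely many closed sets
-/

open Set Filter Topology

noncomputable section

namespace Vale.Agent.P277Z.Ln.GlA

variable {X : Type} [TopologicalSpace X] [T2Space X] {F : Set X}

theorem push {E : Type} [TopologicalSpace E] {ι : E → X} {C S : Set E} (hc : Continuous ι)
    (hC : IsCompact C) (hi : InjOn ι C) (hS : S ⊆ C) {e : E} (he : e ∈ C) :
    𝓝[ι '' S] (ι e) ≤ map ι (𝓝[S] e) := by
  intro V hV
  obtain ⟨O, hO, heO, hOV⟩ := mem_nhdsWithin.1 (mem_map.1 hV)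
  have h1 : IsClosed (ι '' (C \ O)) := ((hC.diff hO).image hc).isClosed
  refine mem_nhdsWithin.2 ⟨_, h1.isOpen_compl, ?_, ?_⟩
  · rintro ⟨e', he', h⟩
    exact he'.2 (hi he'.1 he h ▸ heO)
  · rintro _ ⟨h, s, hs, rfl⟩
    exact hOV ⟨by_contra fun k => h ⟨s, ⟨hS hs, k⟩, rfl⟩, hs⟩

theorem tz (hF : IsCompact F) {C : Set X} (hC : IsClosed C) (hCF : C ⊆ F) {f : X → ℂ}
    (hf : ContinuousOn f C) : ∃ g : X → ℂ, ContinuousOn g F ∧ EqOn g f C := by
  classical
  have := isCompact_iff_compactSpace.1 hF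
  obtain ⟨g, hg⟩ := ContinuousMap.exists_restrict_eq (X := F) (s := Subtype.val ⁻¹' C)
    (hC.preimage continuous_subtype_val) ⟨fun y => f y.1.1,
      hf.comp_continuous (continuous_subtype_val.comp continuous_subtype_val) fun y => y.2⟩
  refine ⟨fun y => if h : y ∈ F then g ⟨y, h⟩ else 0, ?_, fun y hy => ?_⟩
  · rw [continuousOn_iff_continuous_domRestrict]
    exact g.continuous.congr fun y => by simp [y.2]
  · exact (dif_pos (hCF hy)).trans (congrArg (fun a : C(_, ℂ) => a ⟨⟨y, hCF hy⟩, hy⟩) hg)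

variable {κ : Type}

theorem loc (hF : IsCompact F) {S : κ → Set X} (hS : ∀ k, IsClosed (S k)) (hSF : ∀ k, S k ⊆ F)
    {a : κ → X → ℂ} (h0 : ∀ k z, a k z ≠ 0)
    (ha : ∀ k m, ContinuousOn (fun z => a k z / a m z) (S k ∩ S m)) {x : X} (hx : x ∈ F)
    (s : Finset κ) :
    ∃ Φ : X → ℂ, Φ x = 1 ∧ ∀ k ∈ s, ContinuousOn (fun z => Φ z / a k z) (S k) := by
  classical
  induction s using Finset.induction_on with
  | empty => exact ⟨fun _ => 1, rfl, by simp⟩
  | insert j s _ ih =>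
    obtain ⟨Φ, h1, h2⟩ := ih
    have h3 : IsClosed (⋃ k : s, S k ∩ S j) := isClosed_iUnion_of_finite fun k => (hS _).inter (hS j)
    obtain ⟨g, hg, e⟩ := tz hF (C := {x} ∪ ⋃ k : s, S k ∩ S j) (f := fun z => Φ z / a j z)
      (isClosed_singleton.union h3)
      (union_subset (singleton_subset_iff.2 hx) (iUnion_subset fun k z hz => hSF j hz.2))
      ((continuousOn_singleton _ _).union_of_isClosed
        ((locallyFinite_of_finite _).continuousOn_iUnion (fun k => (hS _).inter (hS j)) fun k =>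
          (((h2 k k.2).mono inter_subset_left).mul (ha k j)).congr fun z _ => by
            have := h0 k z
            simp only [Pi.mul_apply]
            field_simp) isClosed_singleton h3)
    refine ⟨fun z => if z = x ∨ ∃ k ∈ s, z ∈ S k then Φ z else g z * a j z, by simp [h1],
      fun k hk => ?_⟩
    rcases Finset.mem_insert.1 hk with rfl | hk
    · refine (hg.mono (hSF k)).congr fun z hz => ?_
      by_cases h : z = x ∨ ∃ k ∈ s, z ∈ S k
      · simp only [if_pos h]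
        exact (e (h.imp id fun ⟨m, hm, hz'⟩ => mem_iUnion.2 ⟨⟨m, hm⟩, hz', hz⟩)).symm
      · simp only [if_neg h]
        exact mul_div_cancel_right₀ _ (h0 k z)
    · refine (h2 k hk).congr fun z hz => ?_
      simp only [if_pos (Or.inr ⟨k, hk, hz⟩ : z = x ∨ ∃ k ∈ s, z ∈ S k)]

/-- `φ x` is a frame near `x` of a line bundle on `A` -/
structure Fr (A : Set X) (φ : X → X → ℂ) : Prop where
  ne : ∀ x y, φ x y ≠ 0
  cont : ∀ x ∈ A, ∀ᶠ y in 𝓝 x, y ∈ A → ContinuousWithinAt (fun z => φ x z / φ y z) A y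

variable [Finite κ] {T : κ → Set X} {φ : κ → X → X → ℂ}

theorem norm (hF : IsCompact F) (hTF : ∀ k, T k ⊆ F) (h0 : ∀ k x y, φ k x y ≠ 0)
    (h3 : ∀ k m j, k ≠ m → m ≠ j → k ≠ j → (T k ∩ T m ∩ T j).Finite)
    (hv : ∀ k m, k ≠ m → ∃ v : X → ℂ, (∀ y, v y ≠ 0) ∧ ∀ x ∈ T k ∩ T m,
      ContinuousWithinAt (fun y => v y * φ k x y / φ m x y) (T k ∩ T m) x) :
    ∃ u : κ → X → ℂ, (∀ k y, u k y ≠ 0) ∧ ∀ k m, ∀ x ∈ T k ∩ T m,
      ContinuousWithinAt (fun y => u k y * φ k x y / (u m y * φ m x y)) (T k ∩ T m) x := by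
  classical
  have := Fintype.ofFinite κ
  obtain ⟨_, -⟩ := exists_wellFoundedLT κ
  set Z : Set X := ⋃ p : {p : κ × κ × κ // p.1 ≠ p.2.1 ∧ p.2.1 ≠ p.2.2 ∧ p.1 ≠ p.2.2},
    T p.1.1 ∩ T p.1.2.1 ∩ T p.1.2.2
  have hZ : Z.Finite := finite_iUnion fun p => h3 _ _ _ p.2.1 p.2.2.1 p.2.2.2
  have hw : ∀ k m, ∃ w : X → ℂ, (∀ y, w y ≠ 0) ∧ (∀ y ∈ Z, w y = 1) ∧ (k ≠ m → ∀ x ∈ T k ∩ T m,
      ContinuousWithinAt (fun y => w y * φ k x y / φ m x y) (T k ∩ T m) x) := fun k m => by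
    by_cases h : k = m
    · exact ⟨fun _ => 1, fun _ => one_ne_zero, fun _ _ => rfl, fun h' => (h' h).elim⟩
    obtain ⟨v, hv0, hv⟩ := hv k m h
    obtain ⟨g, hg, e⟩ := tz hF hZ.isClosed (iUnion_subset fun p z hz => hTF _ hz.2)
      (hZ.continuousOn fun y => Complex.log (v y)⁻¹)
    refine ⟨fun y => Complex.exp (g y) * v y, fun y => mul_ne_zero (Complex.exp_ne_zero _) (hv0 y),
      fun y hy => ?_, fun _ x hx => ?_⟩
    · simp only
      rw [e hy, Complex.exp_log (inv_ne_zero (hv0 y)), inv_mul_cancel₀ (hv0 y)]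
    · simp only [mul_assoc, mul_div_assoc] at hv ⊢
      exact ((hg x (hTF k hx.1)).mono fun z hz => hTF k hz.1).cexp.mul (hv x hx)
  choose w hw0 hw1 hw using hw
  set u : κ → X → ℂ := fun k y => ∏ m ∈ Finset.univ.filter (fun m => k < m ∧ y ∈ T m), w k m y
  have hu0 : ∀ k y, u k y ≠ 0 := fun k y => Finset.prod_ne_zero_iff.2 fun m _ => hw0 k m y
  have key : ∀ k m, k < m → ∀ x ∈ T k ∩ T m,
      ContinuousWithinAt (fun y => u k y * φ k x y / (u m y * φ m x y)) (T k ∩ T m) x := by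
    intro k m h x hx
    have h4 : ∀ y ∈ T k ∩ T m, u k y = w k m y ∧ u m y = 1 := fun y hy => by
      by_cases hy' : y ∈ Z
      · exact ⟨(Finset.prod_eq_one fun j _ => hw1 _ _ y hy').trans (hw1 _ _ y hy').symm,
          Finset.prod_eq_one fun j _ => hw1 _ _ y hy'⟩
      have h5 : ∀ j, k < j → y ∈ T j → j = m := fun j h1 h2 => by_contra fun h6 =>
        hy' (mem_iUnion.2 ⟨⟨(k, m, j), h.ne, Ne.symm h6, h1.ne⟩, hy, h2⟩)
      refine ⟨Finset.prod_eq_single m (fun j hj h6 => ?_) fun h6 => ?_,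
        Finset.prod_eq_one fun j hj => ?_⟩
      · exact (h6 (h5 j (Finset.mem_filter.1 hj).2.1 (Finset.mem_filter.1 hj).2.2)).elim
      · exact (h6 (Finset.mem_filter.2 ⟨Finset.mem_univ _, h, hy.2⟩)).elim
      · have h7 := (Finset.mem_filter.1 hj).2
        exact (h7.1.ne' (h5 j (h.trans h7.1) h7.2)).elim
    refine (hw k m h.ne x hx).congr_of_mem (fun y hy => ?_) hx
    rw [(h4 y hy).1, (h4 y hy).2, one_mul]
  refine ⟨u, hu0, fun k m x hx => ?_⟩
  rcases lt_trichotomy k m with h | rfl | h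
  · exact key k m h x hx
  · simp only [div_self (mul_ne_zero (hu0 _ _) (h0 _ _ _))]
    exact continuousWithinAt_const
  · have h5 := (key m k h x hx.symm).inv₀ (div_ne_zero (mul_ne_zero (hu0 _ _) (h0 _ _ _))
      (mul_ne_zero (hu0 _ _) (h0 _ _ _)))
    rw [inter_comm] at h5
    simpa only [Pi.inv_def, inv_div] using h5

theorem glue (hF : IsCompact F) (hT : ∀ k, IsClosed (T k)) (hTF : ∀ k, T k ⊆ F)
    (hφ : ∀ k, Fr (T k) (φ k)) (hc : ∀ k m, ∀ x ∈ T k ∩ T m,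
      ContinuousWithinAt (fun y => φ k x y / φ m x y) (T k ∩ T m) x) {x : X} (hx : x ∈ F) :
    ∃ Φ : X → ℂ, ∀ᶠ y in 𝓝 x, ∀ k, y ∈ T k →
      Φ y ≠ 0 ∧ ContinuousWithinAt (fun z => Φ z / φ k y z) (T k) y := by
  have := Fintype.ofFinite κ
  have h1 : ∀ᶠ y in 𝓝 x, ∀ k, y ∈ T k →
      x ∈ T k ∧ ContinuousWithinAt (fun z => φ k x z / φ k y z) (T k) y := by
    refine eventually_all.2 fun k => ?_
    by_cases h : x ∈ T k
    · exact ((hφ k).cont x h).mono fun y hy hy' => ⟨h, hy hy'⟩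
    · filter_upwards [(hT k).isOpen_compl.mem_nhds h] with y hy hy' using (hy hy').elim
  obtain ⟨W, hW, hWo, hxW⟩ := mem_nhds_iff.1 h1
  obtain ⟨U, V, hU, hV, hFU, hxV, hUV⟩ := (hF.diff hWo).separation_of_notMem (x := x)
    fun h => h.2 hxW
  have h2 : ∀ k, ∀ y ∈ T k ∩ Uᶜ,
      ContinuousWithinAt (fun z => φ k x z / φ k y z) (T k) y := fun k y hy =>
    (hW (by_contra fun h => hy.2 (hFU ⟨hTF k hy.1, h⟩)) k hy.1).2
  obtain ⟨Φ, hΦ1, hΦ⟩ := loc hF (S := fun k => T k ∩ Uᶜ) (a := fun k => φ k x)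
    (fun k => (hT k).inter hU.isClosed_compl) (fun k z hz => hTF k hz.1)
    (fun k => (hφ k).ne x) (fun k m y hy => by
      have h3 := (((h2 k y hy.1).mono (inter_subset_left (t := T m))).mul
        (hc k m y ⟨hy.1.1, hy.2.1⟩)).div ((h2 m y hy.2).mono inter_subset_right)
        (div_ne_zero ((hφ m).ne _ _) ((hφ m).ne _ _))
      refine (h3.mono fun z hz => ⟨hz.1.1, hz.2.1⟩).congr_of_mem (fun z _ => ?_) hy
      have := (hφ k).ne y z
      have := (hφ m).ne y z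
      have := (hφ m).ne x z
      simp only [Pi.mul_apply, Pi.div_apply]
      field_simp) hx Finset.univ
  have h4 : ∀ k, ∀ y ∈ V, y ∈ T k → ContinuousWithinAt (fun z => Φ z / φ k x z) (T k) y :=
    fun k y hy hy' =>
      (hΦ k (Finset.mem_univ _) y ⟨hy', disjoint_right.1 hUV hy⟩).mono_of_mem_nhdsWithin
        (inter_mem_nhdsWithin _
          (mem_of_superset (hV.mem_nhds hy) fun z hz => disjoint_right.1 hUV hz))
  have h5 : ∀ᶠ y in 𝓝 x, ∀ k, x ∈ T k → y ∈ T k → Φ y / φ k x y ≠ 0 := by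
    refine eventually_all.2 fun k => eventually_imp_distrib_left.2 fun h => ?_
    exact eventually_nhdsWithin_iff.1 ((h4 k x hxV h).eventually_ne
      (div_ne_zero (hΦ1 ▸ one_ne_zero) ((hφ k).ne _ _)))
  refine ⟨Φ, ?_⟩
  filter_upwards [h1, h5, hV.mem_nhds hxV] with y h1 h5 hy k hk
  refine ⟨fun h => h5 k (h1 k hk).1 hk (by rw [h, zero_div]),
    ((h4 k y hy hk).mul (h1 k hk).2).congr_of_mem (fun z _ => ?_) hk⟩
  have := (hφ k).ne x z
  simp only [Pi.mul_apply]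
  field_simp

end Vale.Agent.P277Z.Ln.GlA
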