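import Vale.Agent.P277Z.Ln.Defs
import Vale.Agent.P277Z.Ln.GlA

/-!
# P277Z, block LN: gluing line bundles along double curves
-/

open Set Filter Topology Function
open Vale.Agent.P285.H281.FD (Bd)

noncomputable section

namespace Vale.Agent.P277Z.Ln

namespace GlA

/-- `τ` is a section without zeros and without topology, `φ` consists of its coordinates -/
structure Fm {X E : Type} (ι : E → X) (C : Set E) (L : Bd E) (τ : L.ι → E → ℂ) (φ : X → X → ℂ) :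
    Prop where
  ne : ∀ x y, φ x y ≠ 0
  ne' : ∀ j, ∀ e ∈ C, e ∈ L.U j → τ j e ≠ 0
  chg : ∀ j j', ∀ e ∈ C, e ∈ L.U j → e ∈ L.U j' → τ j e = L.g j j' e * τ j' e
  loc : ∀ e ∈ C, ∃ j, e ∈ L.U j ∧ ∀ e' ∈ C, e' ∈ L.U j → φ (ι e) (ι e') = τ j e'

theorem extend_ne {α β : Type} (f : α → β) {g : α → ℂ} (hg : ∀ a, g a ≠ 0) (y : β) :
    extend f g (fun _ => 1) y ≠ 0 := by
  classical
  rw [extend_def]
  split_ifs
  exacts [hg _, one_ne_zero]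

variable {X E : Type} [TopologicalSpace E] {ι : E → X} {C : Set E} {L : Bd E}

theorem exists_fm (hi : Injective ι) (hL : CB C L) : ∃ τ φ, Fm ι C L τ φ := by
  classical
  choose i hi' using fun e : C => hL.cover e e.2
  have hj : Injective fun e : C => ι e := hi.comp Subtype.val_injective
  refine ⟨fun j e => if h : e ∈ C then L.g j (i ⟨e, h⟩) e else 1,
    fun x => extend (fun e : C => ι e) (fun e' : C => extend (fun e : C => ι e)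
      (fun e : C => if e'.1 ∈ L.U (i e) then L.g (i e) (i e') e' else 1) (fun _ => 1) x) fun _ => 1,
    fun x y => extend_ne _ (fun e' => extend_ne _ (fun e => ?_) x) y, fun j e he h => ?_,
    fun j j' e he h h' => ?_, fun e he => ⟨i ⟨e, he⟩, hi' ⟨e, he⟩, fun e' he' h => ?_⟩⟩
  · split_ifs with h
    exacts [hL.ne_zero _ _ _ e'.2 h (hi' e'), one_ne_zero]
  · rw [dif_pos he]
    exact hL.ne_zero _ _ _ he h (hi' ⟨e, he⟩)
  · rw [dif_pos he, dif_pos he, hL.cocycle _ _ _ _ he h h' (hi' ⟨e, he⟩)]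
  · rw [hj.extend_apply _ _ ⟨e', he'⟩, hj.extend_apply _ _ ⟨e, he⟩, if_pos h, dif_pos he']

variable {τ : L.ι → E → ℂ} {φ : X → X → ℂ}

theorem Fm.div (h : Fm ι C L τ φ) (hL : CB C L) {j j' : L.ι} {e : E} (he : e ∈ C)
    (hj : e ∈ L.U j) (hj' : e ∈ L.U j') {a b : E → ℂ} (ha : ∀ z ∈ C, z ∈ L.U j → a z = τ j z)
    (hb : ∀ z ∈ C, z ∈ L.U j' → b z = τ j' z) : ContinuousWithinAt (fun z => a z / b z) C e := by
  have h1 : C ∩ L.U j ∩ L.U j' ∈ 𝓝[C] e :=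
    inter_mem (inter_mem_nhdsWithin _ ((hL.isOpen j).mem_nhds hj))
      (mem_nhdsWithin_of_mem_nhds ((hL.isOpen j').mem_nhds hj'))
  refine ContinuousWithinAt.mono_of_mem_nhdsWithin
    ((hL.cont j j' e ⟨⟨he, hj⟩, hj'⟩).congr_of_mem (fun z hz => ?_) ⟨⟨he, hj⟩, hj'⟩) h1
  rw [ha z hz.1.1 hz.1.2, hb z hz.1.1 hz.2, h.chg j j' z hz.1.1 hz.1.2 hz.2,
    mul_div_cancel_right₀ _ (h.ne' j' z hz.1.1 hz.2)]

variable [TopologicalSpace X] [T2Space X]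

theorem push_cont (hc : Continuous ι) (hC : IsCompact C) (hi : InjOn ι C) {e : E} (he : e ∈ C)
    {g : X → ℂ} (h : ContinuousWithinAt (fun z => g (ι z)) C e) :
    ContinuousWithinAt g (ι '' C) (ι e) :=
  Tendsto.mono_left (tendsto_map' h) (push hc hC hi Subset.rfl he)

theorem Fm.fr (h : Fm ι C L τ φ) (hL : CB C L) (hc : Continuous ι) (hi : Injective ι)
    (hC : IsCompact C) : Fr (ι '' C) φ := by
  refine ⟨h.ne, ?_⟩
  rintro _ ⟨e, he, rfl⟩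
  obtain ⟨j, hj, h1⟩ := h.loc e he
  refine eventually_nhdsWithin_iff.1 (Eventually.filter_mono (push hc hC hi.injOn Subset.rfl he) ?_)
  rw [eventually_map]
  filter_upwards [inter_mem_nhdsWithin _ ((hL.isOpen j).mem_nhds hj)] with e' he'
  obtain ⟨j', hj', h2⟩ := h.loc e' he'.1
  exact push_cont hc hC hi.injOn he'.1 (h.div hL he'.1 he'.2 hj' h1 h2)

theorem iso_v {E' : Type} [TopologicalSpace E'] {ι' : E' → X} {L' : Bd E'} {τ' : L'.ι → E' → ℂ}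
    {φ' : X → X → ℂ} {F : Set X} (h : Fm ι (ι ⁻¹' F) L τ φ) (h' : Fm ι' (ι' ⁻¹' F) L' τ' φ')
    (hL : CB (ι ⁻¹' F) L) (hL' : CB (ι' ⁻¹' F) L') (hc : Continuous ι) (hc' : Continuous ι')
    (hi : Injective ι) (hi' : Injective ι') (hC : IsCompact (ι ⁻¹' F)) (hC' : IsCompact (ι' ⁻¹' F))
    (hI : Iso {q : E × E' | ι q.1 = ι' q.2 ∧ ι q.1 ∈ F} (pl Prod.fst L) (pl Prod.snd L')) :
    ∃ v : X → ℂ, (∀ y, v y ≠ 0) ∧ ∀ x ∈ ι '' (ι ⁻¹' F) ∩ ι' '' (ι' ⁻¹' F), ContinuousWithinAt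
      (fun y => v y * φ x y / φ' x y) (ι '' (ι ⁻¹' F) ∩ ι' '' (ι' ⁻¹' F)) x := by
  obtain ⟨u, hu, huc⟩ := hI
  set Q : Set (E × E') := {q | ι q.1 = ι' q.2 ∧ ι q.1 ∈ F}
  have h2 : ∀ q ∈ Q, q.2 ∈ ι' ⁻¹' F := fun q hq => show ι' q.2 ∈ F from hq.1 ▸ hq.2
  have hQ : IsCompact Q := by
    convert (hC.prod hC').inter_right (isClosed_eq (hc.comp continuous_fst)
      (hc'.comp continuous_snd)) using 1
    exact Subset.antisymm (fun q hq => ⟨⟨hq.2, h2 q hq⟩, hq.1⟩) fun q hq => ⟨hq.2, hq.1.1⟩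
  have hinj : InjOn (fun q : E × E' => ι q.1) Q := fun q hq q' hq' e =>
    Prod.ext (hi e) (hi' (hq.1.symm.trans (e.trans hq'.1)))
  have him : (fun q : E × E' => ι q.1) '' Q = ι '' (ι ⁻¹' F) ∩ ι' '' (ι' ⁻¹' F) := by
    refine Subset.antisymm ?_ ?_
    · rintro _ ⟨q, hq, rfl⟩
      exact ⟨⟨q.1, hq.2, rfl⟩, q.2, h2 q hq, hq.1.symm⟩
    · rintro _ ⟨⟨e, he, rfl⟩, e', -, k⟩
      exact ⟨(e, e'), ⟨k.symm, he⟩, rfl⟩
  choose i hi₁ using fun q : Q => hL.cover q.1.1 q.2.2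
  choose j hj₁ using fun q : Q => hL'.cover q.1.2 (h2 _ q.2)
  have hj : Injective fun q : Q => ι q.1.1 := fun q q' e => Subtype.ext (hinj q.2 q'.2 e)
  refine ⟨extend (fun q : Q => ι q.1.1)
    (fun q => u (i q) (j q) q * τ' (j q) q.1.2 / τ (i q) q.1.1) fun _ => 1,
    extend_ne _ fun q => div_ne_zero (mul_ne_zero (hu.ne_zero _ _ _ q.2 (hi₁ q) (hj₁ q))
      (h'.ne' _ _ (h2 _ q.2) (hj₁ q))) (h.ne' _ _ q.2.2 (hi₁ q)), ?_⟩
  rw [← him]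
  rintro _ ⟨q, hq, rfl⟩
  obtain ⟨a, ha, k1⟩ := h.loc q.1 hq.2
  obtain ⟨b, hb, k2⟩ := h'.loc q.2 (h2 q hq)
  have h3 : Q ∩ (pl Prod.fst L).U a ∩ (pl Prod.snd L').U b ∈ 𝓝[Q] q :=
    inter_mem (inter_mem_nhdsWithin _ (((hL.isOpen a).preimage continuous_fst).mem_nhds ha))
      (mem_nhdsWithin_of_mem_nhds (((hL'.isOpen b).preimage continuous_snd).mem_nhds hb))
  refine push_cont (hc.comp continuous_fst) hQ hinj hq
    (ContinuousWithinAt.mono_of_mem_nhdsWithin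
      ((huc a b q ⟨⟨hq, ha⟩, hb⟩).congr_of_mem (fun z hz => ?_) ⟨⟨hq, ha⟩, hb⟩) h3)
  have hz' : z ∈ Q := hz.1.1
  have e1 : u a b z * L'.g b (j ⟨z, hz'⟩) z.2 = L.g a (i ⟨z, hz'⟩) z.1 * _ :=
    hu.chg a (i ⟨z, hz'⟩) b (j ⟨z, hz'⟩) z hz' hz.1.2 (hi₁ ⟨z, hz'⟩) hz.2 (hj₁ ⟨z, hz'⟩)
  have e2 := h.ne' _ _ hz'.2 (hi₁ ⟨z, hz'⟩)
  have e3 := h'.ne' _ _ (h2 z hz') (hj₁ ⟨z, hz'⟩)
  have e4 := hL'.ne_zero _ _ _ (h2 z hz') hz.2 (hj₁ ⟨z, hz'⟩)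
  have e5 : φ' (ι q.1) (ι z.1) = τ' b z.2 := by rw [hq.1, hz'.1, k2 z.2 (h2 z hz') hz.2]
  simp only [Function.comp_apply]
  rw [hj.extend_apply _ _ ⟨z, hz'⟩, k1 z.1 hz'.2 hz.1.2, e5,
    h.chg a _ _ hz'.2 hz.1.2 (hi₁ ⟨z, hz'⟩), h'.chg b _ _ (h2 z hz') hz.2 (hj₁ ⟨z, hz'⟩),
    eq_div_of_mul_eq e4 e1]
  field_simp

end GlA

open GlA

theorem gl : StGl := by
  intro X _ _ F κ _ E _ ι L hc hi hC hcov hL h3 hI
  choose τ φ hφ using fun k => exists_fm (hi k) (hL k)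
  have hTF : ∀ k, ι k '' (ι k ⁻¹' F) ⊆ F := fun k => image_preimage_subset _ _
  have hT : ∀ k, IsCompact (ι k '' (ι k ⁻¹' F)) := fun k => (hC k).image (hc k)
  have hFT : F = ⋃ k, ι k '' (ι k ⁻¹' F) := by
    refine Subset.antisymm (fun x hx => ?_) (iUnion_subset hTF)
    obtain ⟨k, e, rfl⟩ := hcov x hx
    exact mem_iUnion.2 ⟨k, e, hx, rfl⟩
  have hF : IsCompact F := hFT ▸ isCompact_iUnion hT
  obtain ⟨u, hu0, hu⟩ := norm hF hTF (fun k => (hφ k).ne)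
    (fun k m j h1 h2 h4 => (h3 k m j h1 h2 h4).subset fun x hx =>
      ⟨⟨⟨hTF k hx.1.1, image_subset_range _ _ hx.1.1⟩, image_subset_range _ _ hx.1.2⟩,
        image_subset_range _ _ hx.2⟩)
    fun k m h => iso_v (hφ k) (hφ m) (hL k) (hL m) (hc k) (hc m) (hi k) (hi m) (hC k) (hC m)
      (hI k m h)
  have hfr : ∀ k, Fr (ι k '' (ι k ⁻¹' F)) fun x y => u k y * φ k x y := fun k =>
    ⟨fun x y => mul_ne_zero (hu0 k y) ((hφ k).ne x y), fun x hx => by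
      simp only [mul_div_mul_left _ _ (hu0 k _)]
      exact ((hφ k).fr (hL k) (hc k) (hi k) (hC k)).cont x hx⟩
  choose Φ hΦ using fun x : F => glue hF (fun k => (hT k).isClosed) hTF hfr hu x.2
  choose U hU hUo hxU using fun x : F => mem_nhds_iff.1 (hΦ x)
  have h0 : ∀ x, ∀ y ∈ F, y ∈ U x → Φ x y ≠ 0 := fun x y hy h =>
    let ⟨k, hk⟩ := mem_iUnion.1 (hFT ▸ hy : y ∈ ⋃ k, ι k '' (ι k ⁻¹' F))
    (hU x h k hk).1
  refine ⟨⟨F, U, fun x x' y => Φ x y / Φ x' y⟩, ⟨hUo, fun x hx => ⟨⟨x, hx⟩, hxU _⟩,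
    fun x x' y hy => ?_, fun x x' y hy h h' => div_ne_zero (h0 x y hy h) (h0 x' y hy h'),
    fun x x' x'' y hy _ h' _ => div_mul_div_cancel₀ (h0 x' y hy h')⟩,
    fun k => ⟨fun x j e => Φ x (ι k e) / (u k (ι k e) * τ k j e), ⟨fun x j e he h h' =>
      div_ne_zero (h0 x _ he h) (mul_ne_zero (hu0 _ _) ((hφ k).ne' j e he h')),
      fun x x' j j' e he h1 h2 h4 h5 => ?_⟩, fun x j e he => ?_⟩⟩
  · refine ContinuousWithinAt.mono (t := ⋃ k, ι k '' (ι k ⁻¹' F)) ?_ fun z hz => hFT ▸ hz.1.1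
    rw [ContinuousWithinAt, nhdsWithin_iUnion, tendsto_iSup]
    intro k
    by_cases hk : y ∈ ι k '' (ι k ⁻¹' F)
    · have h1 := (hU x hy.1.2 k hk).2.div (hU x' hy.2 k hk).2
        (div_ne_zero (hU x' hy.2 k hk).1 ((hfr k).ne _ _))
      refine h1.congr_of_mem (fun z _ => ?_) hk
      exact (div_div_div_cancel_right₀ ((hfr k).ne _ _) _ _).symm
    · exact continuousWithinAt_of_notMem_closure (by rwa [(hT k).isClosed.closure_eq])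
  · have e1 := h0 x' _ he h2
    have e2 := (hL k).ne_zero j j' e he h4 h5
    have e3 := (hφ k).ne' j' e he h5
    have e4 := hu0 k (ι k e)
    simp only [pl]
    rw [(hφ k).chg j j' e he h4 h5]
    field_simp
  · obtain ⟨a, ha, k1⟩ := (hφ k).loc e he.1.1
    have h1 := ((hU x he.1.2 k ⟨e, he.1.1, rfl⟩).2.comp (f := ι k) (hc k).continuousWithinAt
      (mapsTo_image _ _)).mul ((hφ k).div (hL k) he.1.1 ha he.2 k1 fun _ _ _ => rfl)
    refine (h1.mono fun z hz => hz.1.1).congr_of_mem (fun z _ => ?_) he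
    have e1 := (hφ k).ne (ι k e) (ι k z)
    have e4 := hu0 k (ι k z)
    simp only [Pi.mul_apply, Function.comp_apply]
    field_simp

end Vale.Agent.P277Z.Ln
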