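import Vale.Agent.P277Z.Ln.HolA
import Vale.Agent.P277Z.Ln.Dol
import Vale.Agent.P277Z.R2.Defs

/-!
# P277Z, block LN: smooth line bundles near the fibre are holomorphic
-/

set_option linter.all false

open scoped Manifold ContDiff Topology ComplexConjugate ENNReal
open Set Filter MeasureTheory Metric
open Vale.Agent.P272.K Vale.Agent.P284.H608.K Vale.Agent.P284.H205.K
open Vale.Agent.P285.H281.FD (Bd)

noncomputable section

namespace Vale.Agent.P277Z.Ln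

variable {n p : ℕ} {X : Type} [TopologicalSpace X] [ChartedSpace (Cm n) X] {e e' : Chart n X}
  {x : X} {Ω : Set X} [IsManifold 𝓘(ℂ, Cm n) ω X] {α : Type} {l : Filter α}

theorem tend_mul {f : α → ℝ≥0∞} {C : ℝ≥0∞} (hC : C ≠ ⊤) (h : Tendsto f l (𝓝 0)) :
    Tendsto (fun k => C * f k) l (𝓝 0) := by
  simpa using ENNReal.Tendsto.const_mul h (Or.inr hC)

variable (n) in
/-- `g → 0` in `L¹` near `x` -/
def Zx (l : Filter α) (x : X) (g : α → X → ℂ) : Prop :=
  ∀ e : Chart n X, At e x → ∃ S ∈ 𝓝 (e x),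
    Tendsto (fun k => l1 S fun z => g k (e.symm z)) l (𝓝 0)

theorem Zx.of_chart {g : α → X → ℂ} (b : At e' x) {S' : Set (Cm n)} (hS : S' ∈ 𝓝 (e' x))
    (h : Tendsto (fun k => l1 S' fun z => g k (e'.symm z)) l (𝓝 0)) : Zx n l x g := by
  intro e a
  obtain ⟨S, hS1, C, hC, hS2⟩ := l1_chg a b hS
  obtain ⟨r, hr, hb⟩ := Metric.eventually_nhds_iff_ball.1
    ((ev_chart a (ev_at b)).and (show ∀ᶠ z in 𝓝 (e x), z ∈ S from hS1))
  refine ⟨_, ball_mem_nhds _ hr, tend_le (fun k => ?_) (tend_mul hC h)⟩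
  refine le_trans ?_ (hS2 fun z => ‖g k (e'.symm z)‖ₑ)
  refine le_trans (le_of_eq ?_) (lintegral_mono_set fun z hz => (hb z hz).2)
  refine setLIntegral_congr_fun measurableSet_ball fun z hz => ?_
  simp only [e'.left_inv (hb z hz).1.2.2.2]

theorem Zx.add {g h : α → X → ℂ} (hg : Zx n l x g) (hh : Zx n l x h)
    (hc : ∀ᶠ y in 𝓝 x, ∀ k, Sm n (g k) y) : Zx n l x fun k y => g k y + h k y := by
  intro e a
  obtain ⟨S, hS, h1⟩ := hg e a
  obtain ⟨S', hS', h2⟩ := hh e a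
  obtain ⟨r, hr, hb⟩ := Metric.eventually_nhds_iff_ball.1
    ((ev_chart a hc).and (show ∀ᶠ z in 𝓝 (e x), z ∈ S ∩ S' from inter_mem hS hS'))
  refine ⟨_, ball_mem_nhds _ hr, tend_le (fun k => ?_) (by simpa using h1.add h2)⟩
  refine (l1_add_le measurableSet_ball fun z hz => ?_).trans (add_le_add
    (l1_mono (fun z hz => (hb z hz).2.1) _) (l1_mono (fun z hz => (hb z hz).2.2) _))
  obtain ⟨⟨k1, k2, k3⟩, -⟩ := hb z hz
  have := (k3 k e k1).continuousAt
  rw [k2] at this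
  exact this.continuousWithinAt

theorem Zx.le {g h : α → X → ℂ} (hg : Zx n l x g)
    (hc : ∀ᶠ y in 𝓝 x, ∀ k, ‖h k y‖ ≤ ‖g k y‖) : Zx n l x h := by
  intro e a
  obtain ⟨S, hS, h1⟩ := hg e a
  obtain ⟨r, hr, hb⟩ := Metric.eventually_nhds_iff_ball.1
    ((ev_chart a hc).and (show ∀ᶠ z in 𝓝 (e x), z ∈ S from hS))
  exact ⟨_, ball_mem_nhds _ hr, tend_le (fun k => (l1_le measurableSet_ball fun z hz =>
    (hb z hz).1.2.2 k).trans (l1_mono (fun z hz => (hb z hz).2) _)) h1⟩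

theorem Zx.eq_zero {g : X → ℂ} (hg : Zx n atTop x fun _ : ℕ => g) (hc : Sm n g x) : g x = 0 := by
  have a := at_self (n := n) x
  obtain ⟨S, hS, h1⟩ := hg _ a
  have := eq_zero_of_l1 hS (hc _ a).continuousAt (tendsto_const_nhds_iff.1 h1)
  rwa [(chartAt (Cm n) x).left_inv a.2] at this

theorem locL1_of_chart {g : α → Fa n p X} (hΩ : IsOpen Ω) (hx : x ∈ Ω) (hg : ∀ k, FOn Ω (g k))
    (b : At e' x) {S' : Set (Cm n)} (hS : S' ∈ 𝓝 (e' x))
    (h : Tendsto (fun k => l1 S' (g k e')) l (𝓝 0)) (a : At e x) :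
    ∃ S ∈ 𝓝 (e x), Tendsto (fun k => l1 S (g k e)) l (𝓝 0) := by
  obtain ⟨S, hS1, C, hC, hS2⟩ := l1_chg a b hS
  set T : Cm n → Cm n := fun z => e' (e.symm z) with hT
  have hc : ContinuousAt (fun z => ‖fderiv ℂ T z‖ ^ p) (e x) :=
    ((trans_an b a).fderiv.continuousAt.norm).pow p
  set M := ‖fderiv ℂ T (e x)‖ ^ p + 1 with hM
  have hM0 : 0 ≤ M := by positivity
  obtain ⟨r, hr, hb⟩ := Metric.eventually_nhds_iff_ball.1
    ((ev_chart a ((ev_at b).and (hΩ.mem_nhds hx))).and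
      ((show ∀ᶠ z in 𝓝 (e x), z ∈ S from hS1).and (hc.eventually (gt_mem_nhds (lt_add_one _)))))
  refine ⟨_, ball_mem_nhds _ hr, tend_le (fun k => ?_)
    (tend_mul (ENNReal.ofReal_ne_top (r := M)) (tend_mul hC h))⟩
  refine le_trans ?_ (mul_le_mul_right (hS2 fun z => ‖g k e' z‖ₑ) _)
  rw [← lintegral_const_mul' _ _ ENNReal.ofReal_ne_top]
  refine le_trans ?_ (lintegral_mono_set fun z hz => (hb z hz).2.1)
  refine setLIntegral_mono' measurableSet_ball fun z hz => ?_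
  obtain ⟨⟨k1, k2, k3, k4⟩, -, k5⟩ := hb z hz
  have h1 := (hg k).chg e e' _ k1 k3 k4
  rw [k2] at h1
  rw [h1, ← ofReal_norm_eq_enorm, ← ofReal_norm_eq_enorm, ← ENNReal.ofReal_mul hM0, mul_comm]
  refine ENNReal.ofReal_le_ofReal
    ((ContinuousAlternatingMap.norm_compContinuousLinearMap_le _ _).trans ?_)
  rw [Fintype.card_fin]
  exact mul_le_mul_of_nonneg_left k5.le (norm_nonneg _)

theorem norm_le_c1 (A : Af n 1) : ‖A‖ ≤ ∑ a, ‖c1 A a‖ := by
  obtain ⟨B, rfl⟩ := (o1 n).surjective A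
  rw [LinearIsometryEquiv.norm_map]
  refine ContinuousLinearMap.opNorm_le_bound _ (by positivity) fun v => ?_
  rw [clm_eq, Finset.sum_mul]
  refine (norm_sum_le _ _).trans (Finset.sum_le_sum fun a _ => ?_)
  rw [norm_smul, mul_comm]
  exact mul_le_mul_of_nonneg_left (norm_le_pi_norm v a) (norm_nonneg _)

theorem c1_sm {η : Cm n → Af n 1} {z : Cm n} (h : ContDiffAt ℝ ∞ η z) :
    ContDiffAt ℝ ∞ (fun y => c1 (η y)) z :=
  contDiffAt_pi.2 fun _ => ev_sm h _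

theorem l1_c1_le {S : Set (Cm n)} (hS : MeasurableSet S) {η : Cm n → Af n 1}
    {q : Fin n → Cm n → ℂ} (hq : ∀ i, ContinuousOn (q i) S)
    (h : ∀ z ∈ S, ∀ i, c1 (η z) i = q i z) : l1 S η ≤ ∑ i, l1 S (q i) := by
  unfold l1
  rw [← lintegral_finsetSum' _ fun i _ => (hq i).enorm.aemeasurable hS]
  refine setLIntegral_mono' hS fun z hz => ?_
  simp only [← ofReal_norm_eq_enorm]
  rw [← ENNReal.ofReal_sum_of_nonneg fun _ _ => norm_nonneg _]
  refine ENNReal.ofReal_le_ofReal ((norm_le_c1 _).trans (le_of_eq ?_))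
  exact Finset.sum_congr rfl fun i _ => by rw [h z hz]

theorem dolF (c : Cm n) {r : ℝ} (hr : 0 < r) {θ : ℕ → Cm n → Af n 1}
    (hsm : ∀ k, ∀ z ∈ ball c r, ContDiffAt ℝ ∞ (θ k) z)
    (h3 : Tendsto (fun q : ℕ × ℕ => l1 (ball c r) (θ q.1 - θ q.2)) atTop (𝓝 0))
    (h4 : Tendsto (fun k => l1 (ball c r) (dhL (fun _ => 0) (θ k))) atTop (𝓝 0)) :
    ∃ u : ℕ → Cm n → ℂ, (∀ k, ∀ z ∈ ball c (r / 2), ContDiffAt ℝ ∞ (u k) z) ∧
      Tendsto (fun q : ℕ × ℕ => l1 (ball c (r / 2)) (u q.1 - u q.2)) atTop (𝓝 0) ∧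
      Tendsto (fun k => l1 (ball c (r / 2)) fun z => o1 n (pL (u k) z) - θ k z) atTop (𝓝 0) := by
  have k2 : Tendsto (fun q : ℕ × ℕ => l1 (ball c r)
      ((fun z => c1 (θ q.1 z)) - fun z => c1 (θ q.2 z))) atTop (𝓝 0) :=
    tend_le (fun q => l1_le measurableSet_ball fun z _ => norm_c1_le (θ q.1 z - θ q.2 z)) h3
  have k3 : ∀ i j, Tendsto (fun k => l1 (ball c r) fun z =>
      dz i (fun y => c1 (θ k y) j) z - dz j (fun y => c1 (θ k y) i) z) atTop (𝓝 0) := by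
    intro i j
    refine tend_le (fun k => l1_le measurableSet_ball fun z hz => ?_) h4
    have := ev_dh1 ((hsm k z hz).differentiableAt (by simp)) ![i, j]
    simp only [Matrix.cons_val_zero, Matrix.cons_val_one] at this
    rw [← this]
    exact norm_ev_le _ _
  obtain ⟨u, u1, u2, u3⟩ := stDol n c r hr (fun k z => c1 (θ k z))
    (fun k z hz => c1_sm (hsm k z hz)) k2 k3
  refine ⟨u, u1, u2, ?_⟩
  have h5 := tendsto_finsetSum Finset.univ fun i _ => u3 i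
  rw [Finset.sum_const_zero] at h5
  refine tend_le (fun k => l1_c1_le measurableSet_ball (fun i z hz => ?_) fun z _ i => ?_) h5
  · exact ((contDiffAt_dz (u1 k z hz) (m := 0) (by simp)).continuousAt.sub
      (ev_sm (hsm k z (ball_subset_ball (half_le_self hr.le) hz))
        _).continuousAt).continuousWithinAt
  · rw [c1_sub, c1_o1, pL_single, ← dz_eq_dzV]

/-- local solutions -/
theorem dolX {θ : ℕ → Fa n 1 X} (a : At e x) (hΩ : IsOpen Ω) (hx : x ∈ Ω)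
    (hθ : ∀ k, FOn Ω (θ k))
    (h1 : LocL1 atTop Ω fun q : ℕ × ℕ => θ q.1 - θ q.2) (h2 : LocL1 atTop Ω fun k => dA (θ k)) :
    ∃ (B : Set X) (u : ℕ → X → ℂ), IsOpen B ∧ x ∈ B ∧ B ⊆ Ω ∧ B ⊆ e.source ∧
      (∀ k, ∀ y ∈ B, Sm n (u k) y) ∧
      (∀ y ∈ B, Zx n atTop y fun (q : ℕ × ℕ) y => u q.1 y - u q.2 y) ∧
      LocL1 atTop B fun k => D0 (u k) - θ k := by
  obtain ⟨S, hS, h3⟩ := h1 e x a hx
  obtain ⟨S', hS', h4⟩ := h2 e x a hx
  obtain ⟨r, hr, hb⟩ := Metric.eventually_nhds_iff_ball.1 ((ev_chart a (hΩ.mem_nhds hx)).and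
    (show ∀ᶠ z in 𝓝 (e x), z ∈ S ∩ S' from inter_mem hS hS'))
  have hsm : ∀ k, ∀ z ∈ ball (e x) r, ContDiffAt ℝ ∞ (θ k e) z := fun k z hz => by
    obtain ⟨⟨k1, k2, k3⟩, -⟩ := hb z hz
    have := (hθ k).sm e _ k1 k3
    rwa [k2] at this
  obtain ⟨u, u1, u2, u3⟩ := dolF (e x) hr hsm
    (tend_le (fun q => l1_mono (fun z hz => (hb z hz).2.1) _) h3)
    (tend_le (fun q => l1_mono (fun z hz => (hb z hz).2.2) _) h4)
  have hsub : ball (e x) (r / 2) ⊆ ball (e x) r := ball_subset_ball (half_le_self hr.le)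
  have hBo : IsOpen (e.source ∩ e ⁻¹' ball (e x) (r / 2)) := e.isOpen_inter_preimage isOpen_ball
  have hBΩ : e.source ∩ e ⁻¹' ball (e x) (r / 2) ⊆ Ω := fun y hy => by
    have := (hb _ (hsub hy.2)).1.2.2
    rwa [e.left_inv hy.1] at this
  have hue : ∀ k, ∀ z ∈ ball (e x) (r / 2), (fun w => u k (e (e.symm w))) =ᶠ[𝓝 z] u k :=
    fun k z hz => by
      filter_upwards [isOpen_ball.mem_nhds hz] with w hw
      rw [(hb w (hsub hw)).1.2.1]
  have hus : ∀ k, ∀ y ∈ e.source ∩ e ⁻¹' ball (e x) (r / 2), Sm n (fun y => u k (e y)) y :=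
    fun k y hy => Sm.of_chart ⟨a.1, hy.1⟩ ((u1 k _ hy.2).congr_of_eventuallyEq (hue k _ hy.2))
  refine ⟨_, fun k y => u k (e y), hBo, ⟨a.2, mem_ball_self (half_pos hr)⟩, hBΩ,
    inter_subset_left, hus, fun y hy => ?_, fun e' y a' hy => ?_⟩
  · refine Zx.of_chart ⟨a.1, hy.1⟩ (isOpen_ball.mem_nhds hy.2) (tend_le (fun q =>
      l1_le measurableSet_ball fun z hz => ?_) u2)
    simp only [(hb z (hsub hz)).1.2.1]
    rfl
  · refine locL1_of_chart hBo hy (fun k => (FOn.D0 (hus k)).sub ((hθ k).mono hBΩ)) ⟨a.1, hy.1⟩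
      (isOpen_ball.mem_nhds hy.2) (tend_le (fun k => l1_le measurableSet_ball
        fun z hz => le_of_eq ?_) u3) a'
    have : D0 (n := n) (fun y => u k (e y)) e z = o1 n (pL (u k) z) := af1_ext fun i => by
      rw [c1_D0, c1_o1, pL_single, ← dz_eq_dzV]
      unfold dz
      rw [(hue k z hz).fderiv_eq]
    rw [Pi.sub_apply, Pi.sub_apply, this]

/-- limits of approximate logarithms -/
theorem weylX {h : ℕ → X → ℂ} {g : X → ℂ} (hΩ : IsOpen Ω) (he : e ∈ atlas (Cm n) X)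
    (hs : Ω ⊆ e.source) (hh : ∀ k, ∀ y ∈ Ω, Sm n (h k) y) (hg : ∀ y ∈ Ω, Sm n g y ∧ g y ≠ 0)
    (h1 : ∀ y ∈ Ω, Zx n atTop y fun (q : ℕ × ℕ) y => h q.1 y - h q.2 y)
    (h2 : LocL1 atTop Ω fun k => D0 (n := n) (h k) - dlog g) :
    ∃ H : X → ℂ, ∀ y ∈ Ω, Sm n H y ∧ Hol n (fun y => conj (g y * Complex.exp (-H y))) y ∧
      Zx n atTop y fun k y => h k y - H y := by
  set V := e.target ∩ e.symm ⁻¹' Ω with hV
  have hVo : IsOpen V := e.isOpen_inter_preimage_symm hΩ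
  have hat : ∀ z ∈ V, At e (e.symm z) := fun z hz => ⟨he, e.map_target hz.1⟩
  have hsm : ∀ {u : X → ℂ}, (∀ y ∈ Ω, Sm n u y) → ∀ z ∈ V,
      ContDiffAt ℝ ∞ (fun w => u (e.symm w)) z := fun hu z hz => by
    have := hu _ hz.2 e (hat z hz)
    rwa [e.right_inv hz.1] at this
  obtain ⟨H, hH⟩ := stWeyl n V hVo (fun k z => h k (e.symm z)) (fun z => c1 (dlog g e z))
    (fun k => hsm (hh k))
    (fun z hz => by
      obtain ⟨l, hl⟩ := exists_log (g := fun w => g (e.symm w)) (z := z)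
        (by filter_upwards [hVo.mem_nhds hz] with w hw using hsm (fun y hy => (hg y hy).1) w hw)
        (hg _ hz.2).2
      exact ⟨l, hl.mono fun w hw => ⟨hw.1, fun a => by rw [hw.2, c1_dlog]⟩⟩)
    (fun z hz => by
      obtain ⟨S, hS, h3⟩ := h1 _ hz.2 e (hat z hz)
      obtain ⟨S', hS', h4⟩ := h2 e _ (hat z hz) hz.2
      rw [e.right_inv hz.1] at hS hS'
      obtain ⟨r, hr, hb⟩ := Metric.mem_nhds_iff.1 (inter_mem hS hS')
      refine ⟨_, ball_mem_nhds z hr, tend_le (fun q => l1_mono (fun w hw => (hb hw).1) _) h3,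
        fun a => tend_le (fun k => (l1_le measurableSet_ball fun w _ => ?_).trans
          (l1_mono (fun w hw => (hb hw).2) _)) h4⟩
      rw [← c1_D0, ← c1_sub]
      exact norm_ev_le _ _)
  refine ⟨fun y => H (e y), fun y hy => ?_⟩
  have a : At e y := ⟨he, hs hy⟩
  have hz : e y ∈ V := ⟨e.map_source a.2, by rwa [mem_preimage, e.left_inv a.2]⟩
  have hev : ∀ᶠ w in 𝓝 (e y), w ∈ V := hVo.mem_nhds hz
  refine ⟨Sm.of_chart a ((hH _ hz).1.congr_of_eventuallyEq ?_), Hol.of_chart a ?_, ?_⟩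
  · filter_upwards [hev] with w hw
    rw [e.right_inv hw.1]
  · refine AnalyticAt.congr (f := fun w => conj (g (e.symm w) * Complex.exp (-H w)))
      (P299.H954.analyticAt_of_dzb ?_) ?_
    · filter_upwards [hev] with w hw
      have d1 := (hsm (fun y hy => (hg y hy).1) w hw).differentiableAt (by simp)
      have d2 := (hH w hw).1.differentiableAt (by simp)
      have d3 : HasDerivAt (fun t : ℂ => Complex.exp (-t)) (-Complex.exp (-H w)) (H w) :=
        ((Complex.hasDerivAt_exp (-H w)).comp (H w) (hasDerivAt_neg (H w))).congr_deriv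
          (mul_neg_one _)
      have d4 := (hasW_of_diff d2).holo_comp d3
      refine ⟨Complex.conjCLE.differentiableAt.comp w (d1.mul d4.differentiableAt), fun a => ?_⟩
      rw [INT.dzb_conj, INT.dz_mul d1 d4.differentiableAt, dz_eq_dzV a fun w => Complex.exp (-H w),
        d4.dzV, ContinuousLinearMap.smul_apply, pL_single, ← dz_eq_dzV, (hH w hw).2.1, c1_dlog]
      have := (hg _ hw.2).2
      rw [map_eq_zero, smul_eq_mul]
      field_simp
      ring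
    · filter_upwards [hev] with w hw
      rw [e.right_inv hw.1]
  · obtain ⟨S, hS, h3⟩ := (hH _ hz).2.2
    obtain ⟨r, hr, hb⟩ := Metric.mem_nhds_iff.1 (inter_mem hS hev)
    refine Zx.of_chart a (ball_mem_nhds _ hr) (tend_le (fun k => (l1_le measurableSet_ball
      fun w hw => ?_).trans (l1_mono (fun w hw => (hb hw).1) _)) h3)
    simp only [e.right_inv (hb hw).2.1]
    rfl

theorem LocL1.sub {g h : α → Fa n p X} (hΩ : IsOpen Ω) (hc : ∀ k, FOn Ω (g k))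
    (hg : LocL1 l Ω g) (hh : LocL1 l Ω h) {u : α → Fa n p X}
    (hu : ∀ k e x, At e x → x ∈ Ω → u k e (e x) = g k e (e x) - h k e (e x)) : LocL1 l Ω u := by
  intro e x a hx
  obtain ⟨S, hS, h1⟩ := hg e x a hx
  obtain ⟨S', hS', h2⟩ := hh e x a hx
  obtain ⟨r, hr, hb⟩ := Metric.eventually_nhds_iff_ball.1 ((ev_chart a (hΩ.mem_nhds hx)).and
    (show ∀ᶠ z in 𝓝 (e x), z ∈ S ∩ S' from inter_mem hS hS'))
  refine ⟨_, ball_mem_nhds _ hr, tend_le (fun k => ?_) (by simpa using h1.add h2)⟩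
  refine le_trans (l1_le (g := fun z => g k e z + -h k e z) measurableSet_ball fun z hz => ?_)
    ((l1_add_le measurableSet_ball fun z hz => ?_).trans (add_le_add
      (l1_mono (fun z hz => (hb z hz).2.1) _) (le_trans (l1_le measurableSet_ball fun z _ =>
        (norm_neg _).le) (l1_mono (fun z hz => (hb z hz).2.2) _))))
  · obtain ⟨⟨k1, k2, k3⟩, -⟩ := hb z hz
    have := hu k e _ k1 k3
    rw [k2] at this
    rw [this, sub_eq_add_neg]
  · obtain ⟨⟨k1, k2, k3⟩, -⟩ := hb z hz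
    have := ((hc k).sm e _ k1 k3).continuousAt
    rw [k2] at this
    exact this.continuousWithinAt

theorem LocL1.neg {g u : α → Fa n p X} (hΩ : IsOpen Ω) {Ω' : Set X} (hs : Ω ⊆ Ω')
    (hg : LocL1 l Ω' g) (hu : ∀ k e x, At e x → x ∈ Ω → u k e (e x) = -g k e (e x)) :
    LocL1 l Ω u := by
  intro e x a hx
  obtain ⟨S, hS, h1⟩ := hg e x a (hs hx)
  obtain ⟨r, hr, hb⟩ := Metric.eventually_nhds_iff_ball.1 ((ev_chart a (hΩ.mem_nhds hx)).and
    (show ∀ᶠ z in 𝓝 (e x), z ∈ S from hS))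
  refine ⟨_, ball_mem_nhds _ hr, tend_le (fun k => (l1_le measurableSet_ball fun z hz => ?_).trans
    (l1_mono (fun z hz => (hb z hz).2) _)) h1⟩
  obtain ⟨⟨k1, k2, k3⟩, -⟩ := hb z hz
  have := hu k e _ k1 k3
  rw [k2] at this
  rw [this, norm_neg]

theorem D0_sub {g h : X → ℂ} (a : At e x) (hg : Sm n g x) (hh : Sm n h x) :
    D0 (fun y => g y - h y) e (e x) = D0 g e (e x) - D0 h e (e x) :=
  af1_ext fun b => by
    rw [c1_sub, c1_D0, c1_D0, c1_D0, INT.dz_sub ((hg e a).differentiableAt (by simp))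
      ((hh e a).differentiableAt (by simp))]

theorem Sm.sub {h g : X → ℂ} (hh : Sm n h x) (hg : Sm n g x) : Sm n (fun y => h y - g y) x :=
  fun e a => (hh e a).sub (hg e a)

/-- **HOL**, with the fibre inside of `E` -/
def StHol' : Prop :=
  ∀ (N : ℕ) (G : Geo 4 N) (R : RData G), G.F ⊆ R.E → ∀ L₀ : Bd G.W, SB 4 G.F L₀ →
    ∃ L : Bd G.W, G.LB L ∧ Iso G.F L L₀

/-- **HOL** -/
theorem hol_of (hR : R2.StR2') : StHol' := by
  intro N G R hE L₀ hL
  obtain ⟨V, a, f, hV, hFV, ha, hrel, hf, hf0, haf⟩ := exists_conn G.cpt hL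
  obtain ⟨U, γ, hU, hFU, hUV, hγ, hγ1, hγ2⟩ := hR N G R hE V hV hFV f hf hf0
  choose ix hix using fun x : G.F => hL.cover x x.2
  have hloc := fun x : G.F => dolX (n := 4) (x := (x : G.W)) (Ω := U ∩ L₀.U (ix x))
    (θ := fun k => a (ix x) - γ k) (at_self _) (hU.inter (hL.isOpen _)) ⟨hFU x.2, hix x⟩
    (fun k => ((ha _).mono inter_subset_right).sub ((hγ k).mono inter_subset_left))
    (LocL1.neg (hU.inter (hL.isOpen _)) inter_subset_left hγ1 fun k e y _ _ => by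
      simp only [Pi.sub_apply]; abel)
    (LocL1.neg (hU.inter (hL.isOpen _)) inter_subset_left hγ2 fun k e y he hy => by
      rw [Pi.sub_apply, Pi.sub_apply, neg_sub, ← haf (ix x) e y he (hUV hy.1) hy.2]
      exact dhL_sub (((ha _).sm e y he hy.2).differentiableAt (by simp))
        (((hγ k).sm e y he hy.1).differentiableAt (by simp)))
  choose B u hB hxB hBU hBs hu hu1 hu2 using hloc
  have hg : ∀ x x' : G.F, ∀ y ∈ B x ∩ B x', Sm 4 (fun y => conj (L₀.g (ix x) (ix x') y)) y ∧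
      conj (L₀.g (ix x) (ix x') y) ≠ 0 := fun x x' y hy =>
    ⟨(hL.sm _ _ y (hBU x hy.1).2 (hBU x' hy.2).2).conj,
      by simpa using hL.ne_zero _ _ y (hBU x hy.1).2 (hBU x' hy.2).2⟩
  have hpair := fun x x' : G.F => weylX (n := 4) (Ω := B x ∩ B x')
    (h := fun k y => u x k y - u x' k y) (g := fun y => conj (L₀.g (ix x) (ix x') y))
    ((hB x).inter (hB x')) (chart_mem_atlas _ (x : G.W)) (inter_subset_left.trans (hBs x))
    (fun k y hy => (hu x k y hy.1).sub (hu x' k y hy.2)) (hg x x')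
    (fun y hy => Zx.le (Zx.add (hu1 x y hy.1) (Zx.le (h := fun (q : ℕ × ℕ) y =>
        -(u x' q.1 y - u x' q.2 y)) (hu1 x' y hy.2) (Eventually.of_forall fun _ _ =>
          (norm_neg _).le)) (by
        filter_upwards [(hB x).mem_nhds hy.1] with w hw q using
          (hu x _ w hw).sub (hu x _ w hw)))
      (Eventually.of_forall fun w q => le_of_eq (by congr 1; ring)))
    (LocL1.sub (g := fun k => D0 (u x k) - (a (ix x) - γ k))
      (h := fun k => D0 (u x' k) - (a (ix x') - γ k)) ((hB x).inter (hB x'))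
      (fun k => ((FOn.D0 (hu x k)).mono inter_subset_left).sub
        (((ha _).mono fun y hy => (hBU x hy.1).2).sub ((hγ k).mono fun y hy => (hBU x hy.1).1)))
      (fun e y he hy => hu2 x e y he hy.1) (fun e y he hy => hu2 x' e y he hy.2)
      fun k e y he hy => by
        simp only [Pi.sub_apply]
        rw [D0_sub he (hu x k y hy.1) (hu x' k y hy.2), hrel (ix x) (ix x') e y he
          (hUV (hBU x hy.1).1) (hBU x hy.1).2 (hBU x' hy.2).2]
        abel)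
  choose H hH using hpair
  have hco : ∀ x x' x'' y, y ∈ B x → y ∈ B x' → y ∈ B x'' →
      H x x' y + H x' x'' y = H x x'' y := by
    intro x x' x'' y h1 h2 h3
    have hev : ∀ᶠ w in 𝓝 y, w ∈ B x ∧ w ∈ B x' ∧ w ∈ B x'' :=
      ((hB x).inter ((hB x').inter (hB x''))).mem_nhds ⟨h1, h2, h3⟩
    have k1 := Zx.add (hH x x' y ⟨h1, h2⟩).2.2 (hH x' x'' y ⟨h2, h3⟩).2.2 (hev.mono
      fun w hw k => ((hu x k w hw.1).sub (hu x' k w hw.2.1)).sub (hH x x' w ⟨hw.1, hw.2.1⟩).1)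
    have k2 := Zx.add (hH x x'' y ⟨h1, h3⟩).2.2 (Zx.le (h := fun k w =>
      -(u x k w - u x' k w - H x x' w + (u x' k w - u x'' k w - H x' x'' w))) k1
      (Eventually.of_forall fun _ _ => (norm_neg _).le)) (hev.mono
      fun w hw k => ((hu x k w hw.1).sub (hu x'' k w hw.2.2)).sub (hH x x'' w ⟨hw.1, hw.2.2⟩).1)
    have k3 := Zx.eq_zero (g := fun w => H x x' w + H x' x'' w - H x x'' w)
      (k2.le (Eventually.of_forall fun w k => le_of_eq (by congr 1; ring)))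
      (((hH x x' y ⟨h1, h2⟩).1.add (hH x' x'' y ⟨h2, h3⟩).1).sub (hH x x'' y ⟨h1, h3⟩).1)
    exact sub_eq_zero.1 k3
  obtain ⟨w, hw, hw1⟩ := exists_cob 4 G.cpt B hB (fun y hy => ⟨⟨y, hy⟩, hxB _⟩) H
    (fun x x' y h1 h2 => (hH x x' y ⟨h1, h2⟩).1.cont) hco
  refine ⟨⟨G.F, B, fun x x' y => L₀.g (ix x) (ix x') y * Complex.exp (-conj (H x x' y))⟩,
    ⟨hB, fun y hy => ⟨⟨y, hy⟩, hxB _⟩, fun x x' y h1 h2 => ?_, fun x x' y h1 h2 => ?_,
      fun x x' x'' y h1 h2 h3 => ?_⟩,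
    fun x j y => Complex.exp (-conj (w x y)) * L₀.g (ix x) j y,
    ⟨fun x j y _ h1 h2 => ?_, fun x x' j j' y hy h1 h2 h3 h4 => ?_⟩, fun x j y hy => ?_⟩
  · refine (hH x x' y ⟨h1, h2⟩).2.1.congr (Eventually.of_forall fun w => ?_)
    simp only [map_mul, Complex.conj_conj, ← Complex.exp_conj, map_neg]
  · exact mul_ne_zero (hL.ne_zero _ _ y (hBU x h1).2 (hBU x' h2).2) (Complex.exp_ne_zero _)
  · change _ * _ * (_ * _) = _ * _
    rw [← hL.cocycle _ _ _ y (hBU x h1).2 (hBU x' h2).2 (hBU x'' h3).2, ← hco x x' x'' y h1 h2 h3,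
      map_add, neg_add, Complex.exp_add]
    ring
  · exact mul_ne_zero (Complex.exp_ne_zero _) (hL.ne_zero _ _ y (hBU x h1).2 h2)
  · change _ * _ * _ = _ * _ * (_ * _)
    rw [hw1 x x' y hy h1 h2, map_add, neg_add, Complex.exp_add, mul_assoc,
      hL.cocycle _ _ _ y (hBU x h1).2 h3 h4,
      ← hL.cocycle _ _ j' y (hBU x h1).2 (hBU x' h2).2 h4]
    ring
  · refine ContinuousAt.continuousWithinAt (ContinuousAt.mul ?_
      (hL.sm _ _ y (hBU x hy.1.2).2 hy.2).cont)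
    exact (Complex.continuous_conj.continuousAt.comp (hw x y hy.1.2)).neg.cexp

end Vale.Agent.P277Z.Ln
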