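import Vale.Agent.P277Z.Ln.Bas

/-!
# P277Z, block LN: the connection forms of a smooth line bundle
-/

set_option linter.all false

open scoped Manifold ContDiff Topology ComplexConjugate ENNReal
open Set Filter MeasureTheory Metric
open Vale.Agent.P272.K Vale.Agent.P284.H608.K Vale.Agent.P284.H205.K
open Vale.Agent.P285.H281.FD (Bd)

noncomputable section

namespace Vale.Agent.P277Z.Ln

variable {n p : ℕ} {X : Type} [TopologicalSpace X] [ChartedSpace (Cm n) X] {e e' : Chart n X}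
  {x : X} {Ω : Set X} [IsManifold 𝓘(ℂ, Cm n) ω X]

theorem Sm.mul {h g : X → ℂ} (hh : Sm n h x) (hg : Sm n g x) : Sm n (fun y => h y * g y) x :=
  fun e a => (hh e a).mul (hg e a)

theorem Sm.add {h g : X → ℂ} (hh : Sm n h x) (hg : Sm n g x) : Sm n (fun y => h y + g y) x :=
  fun e a => (hh e a).add (hg e a)

theorem Sm.inv {h : X → ℂ} (hh : Sm n h x) (h0 : h x ≠ 0) : Sm n (fun y => (h y)⁻¹) x :=
  fun e a => (hh e a).inv (by rwa [e.left_inv a.2])

theorem Sm.conj {h : X → ℂ} (hh : Sm n h x) : Sm n (fun y => conj (h y)) x :=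
  fun e a => Complex.conjCLE.contDiff.contDiffAt.comp (e x) (hh e a)

theorem Sm.const (c : ℂ) : Sm n (fun _ => c) x := fun _ _ => contDiffAt_const

theorem Sm.real {h : X → ℝ} (hh : P301.H599.Smooth (d := n) h) (x : X) :
    Sm n (fun y => (h y : ℂ)) x :=
  fun e a => Complex.ofRealCLM.contDiff.contDiffAt.comp (e x) (hh e x a)

/-- `∂ log h` -/
def dlog (h : X → ℂ) : Fa n 1 X := sF (fun y => (h y)⁻¹) (D0 h)

theorem c1_dlog (h : X → ℂ) (e : Chart n X) (z : Cm n) (a : Fin n) :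
    c1 (dlog h e z) a = (h (e.symm z))⁻¹ * dz a (fun y => h (e.symm y)) z := by
  unfold dlog sF
  rw [c1_smul, c1_D0]

theorem af1_ext {A B : Af n 1} (h : ∀ a, c1 A a = c1 B a) : A = B :=
  P284.H279.K.Af_ext fun s => by
    have : s = fun _ => s 0 := funext fun i => by rw [Subsingleton.elim i 0]
    rw [this]; exact h _

/-- a local logarithm -/
theorem exists_log {g : Cm n → ℂ} {z : Cm n} (hg : ∀ᶠ y in 𝓝 z, ContDiffAt ℝ ∞ g y)
    (h0 : g z ≠ 0) : ∃ l : Cm n → ℂ, ∀ᶠ y in 𝓝 z, ContDiffAt ℝ ∞ l y ∧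
      ∀ a, dz a l y = (g y)⁻¹ * dz a g y := by
  refine ⟨fun y => Complex.log (g y / g z), ?_⟩
  have hc : ContinuousAt (fun y => g y / g z) z := hg.self_of_nhds.continuousAt.div_const _
  have h1 : ∀ᶠ y in 𝓝 z, g y / g z ∈ Complex.slitPlane :=
    hc.eventually (Complex.isOpen_slitPlane.mem_nhds (by simp [h0]))
  filter_upwards [hg, h1] with y h2 h3
  have h4 : ContDiffAt ℝ ∞ (fun y => g y / g z) y := h2.div_const _
  refine ⟨((Complex.contDiffAt_log h3).restrict_scalars ℝ).comp (g := Complex.log) y h4,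
    fun a => ?_⟩
  have h5 := hasW_of_diff (h2.differentiableAt (by simp))
  have h6 : HasDerivAt (fun t : ℂ => Complex.log (t / g z)) (g y)⁻¹ (g y) := by
    have := (Complex.hasDerivAt_log h3).comp (g y) ((hasDerivAt_id (g y)).div_const (g z))
    refine HasDerivAt.congr_deriv this ?_
    have hy : g y ≠ 0 := fun h => by simp [h] at h3
    field_simp
  rw [dz_eq_dzV, dz_eq_dzV, (h5.holo_comp h6).dzV, h5.dzV]
  rfl

theorem dlog_mul {g h k : X → ℂ} (a : At e x) (hg : Sm n g x) (hh : Sm n h x) (g0 : g x ≠ 0)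
    (h0 : h x ≠ 0) (hk : ∀ᶠ y in 𝓝 x, k y = g y * h y) :
    dlog k e (e x) = dlog g e (e x) + dlog h e (e x) := by
  refine af1_ext fun b => ?_
  have h1 : (fun y => k (e.symm y)) =ᶠ[𝓝 (e x)] fun y => g (e.symm y) * h (e.symm y) :=
    (tend_symm a.2).eventually hk
  have h2 : dz b (fun y => k (e.symm y)) (e x) =
      dz b (fun y => g (e.symm y) * h (e.symm y)) (e x) := by
    unfold dz; rw [h1.fderiv_eq]
  rw [c1_add, c1_dlog, c1_dlog, c1_dlog, h2, INT.dz_mul ((hg e a).differentiableAt (by simp))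
    ((hh e a).differentiableAt (by simp)), e.left_inv a.2, hk.self_of_nhds]
  field_simp

theorem dA_dlog {g : X → ℂ} (a : At e x) (hg : ∀ᶠ y in 𝓝 x, Sm n g y) (g0 : g x ≠ 0) :
    dA (dlog g) e (e x) = 0 := by
  obtain ⟨l, hl⟩ := exists_log (g := fun y => g (e.symm y)) (z := e x) (by
    filter_upwards [ev_chart a hg] with z ⟨k1, k2, k3⟩
    have := k3 e k1
    rwa [k2] at this) (by rwa [e.left_inv a.2])
  rw [← dh_pL hl.self_of_nhds.1]
  refine dhL_congr ?_
  filter_upwards [hl] with z hz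
  refine af1_ext fun b => ?_
  rw [c1_dlog, c1_o1, pL_single, ← dz_eq_dzV, hz.2]

theorem FOn.dlog {h : X → ℂ} (hh : ∀ x ∈ Ω, Sm n h x ∧ h x ≠ 0) : FOn Ω (dlog (n := n) h) :=
  FOn.smul (fun x hx => (hh x hx).1.inv (hh x hx).2) (FOn.D0 fun x hx => (hh x hx).1)

variable [T2Space X] [SecondCountableTopology X]

variable (n) in
/-- a finite smooth partition of unity near a compact set -/
theorem exists_fpou {F : Set X} (hF : IsCompact F) {ι : Type} (U : ι → Set X)
    (hU : ∀ i, IsOpen (U i)) (hc : ∀ x ∈ F, ∃ i, x ∈ U i) :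
    ∃ (s : Finset ι) (χ : ι → X → ℝ) (V : Set X), IsOpen V ∧ F ⊆ V ∧
      (∀ i, P301.H599.Smooth (d := n) (χ i)) ∧ (∀ i ∈ s, tsupport (χ i) ⊆ U i) ∧
      ∀ x ∈ V, ∑ i ∈ s, χ i x = 1 := by
  classical
  have : LocallyCompactSpace X := ChartedSpace.locallyCompactSpace (Cm n) X
  obtain ⟨s, hs⟩ := hF.elim_finite_subcover U hU fun x hx => mem_iUnion.2 (hc x hx)
  obtain ⟨χ, h1, h2, -, -, h5⟩ := Van.exists_pou (d := n) (X := X) (ι := Option s)
    (fun o => o.elim Fᶜ fun i => U i)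
    (fun o => by cases o with
      | none => exact hF.isClosed.isOpen_compl
      | some i => exact hU i)
    (fun x => by
      by_cases hx : x ∈ F
      · obtain ⟨i, hi, hx'⟩ := mem_iUnion₂.1 (hs hx)
        exact ⟨some ⟨i, hi⟩, hx'⟩
      · exact ⟨none, hx⟩)
  refine ⟨s, fun i => if h : i ∈ s then χ (some ⟨i, h⟩) else χ none, (tsupport (χ none))ᶜ,
    (isClosed_tsupport _).isOpen_compl, fun x hx h => h2 none h hx, fun i => ?_, fun i hi => ?_,
    fun x hx => ?_⟩
  · by_cases h : i ∈ s <;> simp only [h, dif_pos, dif_neg, not_false_iff] <;> exact h1 _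
  · simp only [hi, dif_pos]; exact h2 (some ⟨i, hi⟩)
  · have h6 := h5 x
    rw [finsum_eq_sum_of_fintype, Fintype.sum_option, image_eq_zero_of_notMem_tsupport hx,
      zero_add] at h6
    rw [← h6, ← Finset.sum_coe_sort]
    exact Finset.sum_congr rfl fun i _ => by simp only [i.2, dif_pos]

omit [ChartedSpace (Cm n) X] [IsManifold 𝓘(ℂ, Cm n) ω X] in
/-- additive cocycles of continuous functions are coboundaries -/
theorem exists_cob (n : ℕ) [ChartedSpace (Cm n) X] [IsManifold 𝓘(ℂ, Cm n) ω X] {F : Set X} (hF : IsCompact F) {ι : Type} (U : ι → Set X)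
    (hU : ∀ i, IsOpen (U i)) (hc : ∀ x ∈ F, ∃ i, x ∈ U i) (k : ι → ι → X → ℂ)
    (hk : ∀ i j x, x ∈ U i → x ∈ U j → ContinuousAt (k i j) x)
    (hcc : ∀ i j l x, x ∈ U i → x ∈ U j → x ∈ U l → k i j x + k j l x = k i l x) :
    ∃ w : ι → X → ℂ, (∀ i, ∀ x ∈ U i, ContinuousAt (w i) x) ∧
      ∀ i j, ∀ x ∈ F, x ∈ U i → x ∈ U j → w i x = k i j x + w j x := by
  obtain ⟨s, χ, V, -, hV, h1, h2, h3⟩ := exists_fpou n hF U hU hc
  refine ⟨fun i x => ∑ c ∈ s, χ c x * k i c x, fun i x hx => ?_, fun i j x hx hi hj => ?_⟩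
  · refine tendsto_finsetSum s fun c hc => (?_ : ContinuousAt (fun x => (χ c x : ℂ) * k i c x) x)
    by_cases h : x ∈ U c
    · exact (Sm.real (h1 c) x).cont.mul (hk i c x hx h)
    · refine (continuousAt_const (y := (0 : ℂ))).congr ?_
      filter_upwards [(isClosed_tsupport (χ c)).isOpen_compl.mem_nhds fun h' => h (h2 c hc h')]
        with y hy
      rw [image_eq_zero_of_notMem_tsupport hy]; simp
  · have h4 : k i j x = ∑ c ∈ s, χ c x * k i j x := by
      rw [← Finset.sum_mul, ← Complex.ofReal_sum, h3 x (hV hx)]; simp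
    rw [h4, ← Finset.sum_add_distrib]
    refine Finset.sum_congr rfl fun c hc => ?_
    by_cases h : x ∈ U c
    · rw [← hcc i j c x hi hj h]; ring
    · rw [image_eq_zero_of_notMem_tsupport fun h' => h (h2 c hc h')]; simp

/-- the connection forms and the curvature -/
theorem exists_conn {F : Set X} (hF : IsCompact F) {L : Bd X} (hL : SB n F L) :
    ∃ (V : Set X) (a : L.ι → Fa n 1 X) (f : Fa n 2 X), IsOpen V ∧ F ⊆ V ∧
      (∀ i, FOn (L.U i) (a i)) ∧
      (∀ i j e x, At e x → x ∈ V → x ∈ L.U i → x ∈ L.U j →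
        a i e (e x) = a j e (e x) + dlog (fun y => conj (L.g i j y)) e (e x)) ∧
      FOn V f ∧ (∀ e x, At e x → x ∈ V → dA f e (e x) = 0) ∧
      ∀ i e x, At e x → x ∈ V → x ∈ L.U i → dA (a i) e (e x) = f e (e x) := by
  classical
  obtain ⟨s, χ, V, hVo, hV, h1, h2, h3⟩ := exists_fpou n hF L.U hL.isOpen hL.cover
  set G : L.ι → L.ι → X → ℂ := fun i j y => conj (L.g i j y) with hG
  have hGs : ∀ i j x, x ∈ L.U i → x ∈ L.U j → Sm n (G i j) x ∧ G i j x ≠ 0 := fun i j x a b =>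
    ⟨(hL.sm i j x a b).conj, by simpa [hG] using hL.ne_zero i j x a b⟩
  have hz : ∀ c ∈ s, ∀ x, x ∉ L.U c → ∀ᶠ y in 𝓝 x, χ c y = 0 := fun c hc x h => by
    filter_upwards [(isClosed_tsupport (χ c)).isOpen_compl.mem_nhds fun h' => h (h2 c hc h')]
      with y hy using image_eq_zero_of_notMem_tsupport hy
  set a : L.ι → Fa n 1 X := fun i => ∑ c ∈ s, sF (fun y => (χ c y : ℂ)) (dlog (G i c)) with ha
  have haF : ∀ i, FOn (L.U i) (a i) := fun i => FOn.sum s fun c hc => FOn.of_loc fun x hx => by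
    by_cases h : x ∈ L.U c
    · exact ⟨_, FOn.smul (fun y _ => Sm.real (h1 c) y) (FOn.dlog fun y hy => by
        rw [hy]; exact hGs i c x hx h), Eventually.of_forall fun _ _ _ => rfl⟩
    · refine ⟨0, FOn.zero, (hz c hc x h).mono fun y hy e he => ?_⟩
      rw [sF_at _ _ he, hy]; ext v; simp
  have hrel : ∀ i j e x, At e x → x ∈ V → x ∈ L.U i → x ∈ L.U j →
      a i e (e x) = a j e (e x) + dlog (G i j) e (e x) := by
    intro i j e x he hx hi hj
    have h4 : dlog (G i j) e (e x) = ∑ c ∈ s, (χ c x : ℂ) • dlog (G i j) e (e x) := by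
      rw [← Finset.sum_smul, ← Complex.ofReal_sum, h3 x hx]; simp
    rw [h4]
    simp only [ha, Finset.sum_apply, sF_at _ _ he]
    rw [← Finset.sum_add_distrib]
    refine Finset.sum_congr rfl fun c hc => ?_
    by_cases h : x ∈ L.U c
    · rw [dlog_mul (k := G i c) he (hGs i j x hi hj).1 (hGs j c x hj h).1
        (hGs i j x hi hj).2 (hGs j c x hj h).2]
      · ext v; simp; ring
      filter_upwards [(hL.isOpen i).mem_nhds hi, (hL.isOpen j).mem_nhds hj,
        (hL.isOpen c).mem_nhds h] with y k1 k2 k3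
      simp only [hG]
      rw [← map_mul, hL.cocycle i j c y k1 k2 k3]
    · rw [(hz c hc x h).self_of_nhds]; ext v; simp
  have hd : ∀ i j e x, At e x → x ∈ V → x ∈ L.U i → x ∈ L.U j →
      dA (a i) e (e x) = dA (a j) e (e x) := by
    intro i j e x he hx hi hj
    have hev : ∀ᶠ y in 𝓝 x, y ∈ V ∧ y ∈ L.U i ∧ y ∈ L.U j :=
      (hVo.inter ((hL.isOpen i).inter (hL.isOpen j))).mem_nhds ⟨hx, hi, hj⟩
    have h4 : a i e =ᶠ[𝓝 (e x)] fun z => a j e z + dlog (G i j) e z := by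
      filter_upwards [ev_chart he hev] with z ⟨k1, k2, k3, k4, k5⟩
      have := hrel i j e _ k1 k3 k4 k5
      rwa [k2] at this
    have h5 := (FOn.dlog (Ω := {x}) (h := G i j) fun y hy => by
      rw [hy]; exact hGs i j x hi hj).sm e x he rfl
    have h6 := dA_dlog he (hev.mono fun y hy => (hGs i j y hy.2.1 hy.2.2).1) (hGs i j x hi hj).2
    unfold dA at h6 ⊢
    rw [dhL_congr h4, dhL_add (((haF j).sm e x he hj).differentiableAt (by simp))
      (h5.differentiableAt (by simp)), h6, add_zero]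
  have hcov : ∀ x ∈ V, ∃ i, x ∈ L.U i := fun x hx => by
    by_contra h
    have h4 := h3 x hx
    rw [Finset.sum_eq_zero fun c hc => (hz c hc x fun h' => h ⟨c, h'⟩).self_of_nhds] at h4
    exact zero_ne_one h4
  set f : Fa n 2 X := fun e z =>
    if h : e.symm z ∈ V then dA (a (hcov _ h).choose) e z else 0 with hf
  have hfa : ∀ i e x, At e x → x ∈ V → x ∈ L.U i → dA (a i) e (e x) = f e (e x) := by
    intro i e x he hx hi
    have h4 : e.symm (e x) ∈ V := by rwa [e.left_inv he.2]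
    simp only [hf, h4, dif_pos]
    refine hd _ _ e x he hx hi ?_
    exact (congrArg (· ∈ L.U (hcov _ h4).choose) (e.left_inv he.2)).mp (hcov _ h4).choose_spec
  have hev : ∀ x ∈ V, ∃ i, x ∈ L.U i ∧ ∀ᶠ y in 𝓝 x, ∀ e, At e y → f e (e y) = dA (a i) e (e y) :=
    fun x hx => by
      obtain ⟨i, hi⟩ := hcov x hx
      refine ⟨i, hi, ?_⟩
      filter_upwards [hVo.mem_nhds hx, (hL.isOpen i).mem_nhds hi] with y k1 k2 e he
        using (hfa i e y he k1 k2).symm
  refine ⟨V, a, f, hVo, hV, haF, hrel, FOn.of_loc fun x hx => ?_, fun e x he hx => ?_, hfa⟩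
  · obtain ⟨i, hi, h4⟩ := hev x hx
    exact ⟨_, ((haF i).dA (hL.isOpen i)).mono (singleton_subset_iff.2 hi), h4⟩
  · obtain ⟨i, hi, h4⟩ := hev x hx
    have h5 : f e =ᶠ[𝓝 (e x)] dA (a i) e := by
      filter_upwards [ev_chart he h4] with z ⟨k1, k2, k3⟩
      have := k3 e k1
      rwa [k2] at this
    unfold dA
    rw [dhL_congr h5]
    exact dhL_dhL contDiffAt_const ((haF i).sm e x he hi)

end Vale.Agent.P277Z.Ln
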