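import Vale.Agent.P277Z.Ln.Defs
import Vale.Agent.P277Z.Van.Vol

/-!
# P277Z, block LN: smoothing of line bundles and of their isomorphisms
-/

set_option linter.all false

open scoped Manifold ContDiff Topology
open Set Filter
open Vale.Agent.P272.K
open Vale.Agent.P285.H281.FD (Bd)
open Vale.Agent.P277Z.Van (exists_pou finsum_loc contDiffAt_patch)

noncomputable section

namespace Vale.Agent.P277Z.Ln

namespace SmH

variable {X : Type} [TopologicalSpace X]

/-! ### continuous bundles -/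

section top

variable {A B : Set X} {L M N : Bd X}

theorem cb_mono (h : CB A L) (hB : B ⊆ A) : CB B L :=
  ⟨h.isOpen, fun x hx => h.cover x (hB hx),
    fun i j => (h.cont i j).mono fun _ hx => ⟨⟨hB hx.1.1, hx.1.2⟩, hx.2⟩,
    fun i j x hx => h.ne_zero i j x (hB hx), fun i j k x hx => h.cocycle i j k x (hB hx)⟩

theorem cb_one (h : CB A L) {i : L.ι} {x : X} (hx : x ∈ A) (hi : x ∈ L.U i) : L.g i i x = 1 :=
  mul_left_cancel₀ (h.ne_zero i i x hx hi hi) (by rw [h.cocycle i i i x hx hi hi hi, mul_one])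

/-- composition of isomorphisms -/
theorem trans (hL : CB A L) (hM : CB A M) (hN : CB A N) {u : L.ι → M.ι → X → ℂ}
    {u' : M.ι → N.ι → X → ℂ} (h : Rel A L M u)
    (hc : ∀ i j, ContinuousOn (u i j) (A ∩ L.U i ∩ M.U j)) (h' : Rel A M N u')
    (hc' : ∀ i j, ContinuousOn (u' i j) (A ∩ M.U i ∩ N.U j)) :
    ∃ w, Rel A L N w ∧ (∀ i j, ContinuousOn (w i j) (A ∩ L.U i ∩ N.U j)) ∧
      ∀ a i j, ∀ x ∈ A, x ∈ L.U a → x ∈ M.U i → x ∈ N.U j → w a j x = u a i x * u' i j x := by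
  classical
  choose I hI using hM.cover
  have key : ∀ a i j, ∀ x ∈ A, x ∈ L.U a → x ∈ M.U i → x ∈ N.U j →
      (if hx : x ∈ A then u a (I x hx) x * u' (I x hx) j x else 0) = u a i x * u' i j x := by
    intro a i j x hx ha hi hj
    have h1 := h.chg a a (I x hx) i x hx ha ha (hI x hx) hi
    have h2 := h'.chg (I x hx) i j j x hx (hI x hx) hi hj hj
    rw [cb_one hL hx ha, one_mul] at h1
    rw [cb_one hN hx hj, mul_one] at h2
    rw [dif_pos hx, h2, ← mul_assoc, h1]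
  refine ⟨fun a j x => if hx : x ∈ A then u a (I x hx) x * u' (I x hx) j x else 0,
    ⟨fun a j x hx ha hj => ?_, fun a a' j j' x hx ha ha' hj hj' => ?_⟩, fun a j x hx => ?_, key⟩
  · rw [dif_pos hx]
    exact mul_ne_zero (h.ne_zero _ _ x hx ha (hI x hx)) (h'.ne_zero _ _ x hx (hI x hx) hj)
  · have h1 := h.chg a a' _ _ x hx ha ha' (hI x hx) (hI x hx)
    have h2 := h'.chg _ _ j j' x hx (hI x hx) (hI x hx) hj hj'
    rw [dif_pos hx, dif_pos hx, mul_assoc, h2, ← mul_assoc, h1, mul_assoc]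
  · have h1 : M.U (I x hx.1.1) ∈ 𝓝 x := (hM.isOpen _).mem_nhds (hI x hx.1.1)
    rw [← continuousWithinAt_inter h1]
    refine ContinuousWithinAt.congr (f := fun y => u a (I x hx.1.1) y * u' (I x hx.1.1) j y) ?_
      (fun y hy => key a _ j y hy.1.1.1 hy.1.1.2 hy.2 hy.1.2)
      (key a _ j x hx.1.1 hx.1.2 (hI x hx.1.1) hx.2)
    exact ((hc a _ x ⟨hx.1, hI x hx.1.1⟩).mono fun y hy => ⟨hy.1.1, hy.2⟩).mul
      ((hc' _ j x ⟨⟨hx.1.1, hI x hx.1.1⟩, hx.2⟩).mono fun y hy => ⟨⟨hy.1.1.1, hy.2⟩, hy.1.2⟩)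

theorem cont_union (hA : IsClosed A) (hB : IsClosed B) {W : Set X} {f : X → ℂ}
    (h1 : ContinuousOn f (A ∩ W)) (h2 : ContinuousOn f (B ∩ W)) :
    ContinuousOn f ((A ∪ B) ∩ W) := fun x hx => by
  have key : ∀ {C : Set X}, IsClosed C → ContinuousOn f (C ∩ W) →
      ContinuousWithinAt f (C ∩ W) x := fun {C} hC h => by
    by_cases hx' : x ∈ C
    · exact h x ⟨hx', hx.2⟩
    · exact continuousWithinAt_of_notMem_closure fun h3 =>
        hx' (closure_minimal inter_subset_left hC h3)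
  rw [union_inter_distrib_right]
  exact (key hA h1).union (key hB h2)

/-- pasting of isomorphisms -/
theorem paste (hA : IsClosed A) (hB : IsClosed B) {u u' : L.ι → M.ι → X → ℂ} (h : Rel A L M u)
    (hc : ∀ i j, ContinuousOn (u i j) (A ∩ L.U i ∩ M.U j)) (h' : Rel B L M u')
    (hc' : ∀ i j, ContinuousOn (u' i j) (B ∩ L.U i ∩ M.U j))
    (he : ∀ i j, ∀ x ∈ A, x ∈ B → x ∈ L.U i → x ∈ M.U j → u i j x = u' i j x) :
    Iso (A ∪ B) L M := by
  classical
  refine ⟨fun i j x => if x ∈ A then u i j x else u' i j x,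
    ⟨fun i j x hx hi hj => ?_, fun i i' j j' x hx hi hi' hj hj' => ?_⟩, fun i j => ?_⟩
  · split_ifs with h1
    exacts [h.ne_zero i j x h1 hi hj, h'.ne_zero i j x (hx.resolve_left h1) hi hj]
  · split_ifs with h1
    exacts [h.chg i i' j j' x h1 hi hi' hj hj',
      h'.chg i i' j j' x (hx.resolve_left h1) hi hi' hj hj']
  · rw [inter_assoc]
    refine cont_union hA hB ?_ ?_ <;> rw [← inter_assoc]
    · exact (hc i j).congr fun x hx => if_pos hx.1.1
    · refine (hc' i j).congr fun x hx => ?_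
      dsimp only
      split_ifs with h1
      exacts [he i j x h1 hx.1.1 hx.1.2 hx.2, rfl]

/-- extension of a function with positive real part -/
theorem ext_pos [NormalSpace X] (hA : IsClosed A) {h : X → ℂ} (hc : ContinuousOn h A)
    (hp : ∀ x ∈ A, 0 < (h x).re) : ∃ r : X → ℂ, Continuous r ∧ (∀ x, r x ≠ 0) ∧
      ∀ x ∈ A, r x = h x := by
  obtain ⟨g, hg⟩ := ContinuousMap.exists_restrict_eq hA
    ⟨_, (hc.clog fun x hx => Or.inl (hp x hx)).restrict⟩
  refine ⟨fun x => Complex.exp (g x), g.continuous.cexp, fun x => Complex.exp_ne_zero _,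
    fun x hx => ?_⟩
  have h1 : g x = Complex.log (h x) := congrArg (fun f : C(A, ℂ) => f ⟨x, hx⟩) hg
  show Complex.exp (g x) = _
  rw [h1, Complex.exp_log fun e => by simpa [e] using hp x hx]

end top

/-! ### smooth functions -/

variable {n : ℕ} [ChartedSpace (Cm n) X] {a b : X → ℂ} {x : X}

theorem sm_const (c : ℂ) : Sm n (fun _ => c) x := fun _ _ => contDiffAt_const

theorem sm_mul (ha : Sm n a x) (hb : Sm n b x) : Sm n (fun y => a y * b y) x :=
  fun e he => (ha e he).mul (hb e he)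

theorem sm_inv (ha : Sm n a x) (h0 : a x ≠ 0) : Sm n (fun y => (a y)⁻¹) x :=
  fun e he => (ha e he).inv (by rwa [e.left_inv he.2])

theorem sm_cont (ha : Sm n a x) : ContinuousAt a x := by
  have hx := mem_chart_source (Cm n) x
  have h1 := (ha _ ⟨chart_mem_atlas _ x, hx⟩).continuousAt.comp ((chartAt (Cm n) x).continuousAt hx)
  refine h1.congr ?_
  filter_upwards [(chartAt (Cm n) x).open_source.mem_nhds hx] with y hy
  simp [(chartAt (Cm n) x).left_inv hy]

theorem sb_cb {A : Set X} {L : Bd X} (h : SB n A L) : CB A L :=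
  ⟨h.isOpen, h.cover, fun i j x hx => (sm_cont (h.sm i j x hx.1.2 hx.2)).continuousWithinAt,
    fun i j x _ => h.ne_zero i j x, fun i j k x _ => h.cocycle i j k x⟩

theorem sb_triv (A : Set X) : SB n A (triv X) :=
  ⟨fun _ => isOpen_univ, fun _ _ => ⟨(), trivial⟩, fun _ _ _ _ _ => sm_const 1,
    fun _ _ _ _ _ => one_ne_zero, fun _ _ _ _ _ _ _ => mul_one _⟩

/-- a bundle and a trivial bundle, glued along a section -/
def glue (L : Bd X) (O O' : Set X) (v : L.ι → X → ℂ) : Bd X where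
  ι := Option L.ι
  U a := a.elim O' fun i => L.U i ∩ O
  g
    | some i, some j => L.g i j
    | some i, none => v i
    | none, some j => fun x => (v j x)⁻¹
    | none, none => fun _ => 1

theorem sb_glue {A B O O' V : Set X} {L : Bd X} (h : SB n A L) (hO : IsOpen O) (hO' : IsOpen O')
    (hA : A ⊆ O) (hB : B ⊆ O') (hV : O ∩ O' ⊆ V) {v : L.ι → Unit → X → ℂ}
    (hv : Rel V L (triv X) v) (hs : ∀ i, ∀ x ∈ V, x ∈ L.U i → Sm n (v i ()) x) :
    SB n (A ∪ B) (glue L O O' fun i => v i ()) := by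
  have h0 : ∀ i x, x ∈ L.U i ∩ O → x ∈ O' → v i () x ≠ 0 := fun i x hi hx =>
    hv.ne_zero i () x (hV ⟨hi.2, hx⟩) hi.1 trivial
  have h1 : ∀ i j x, x ∈ L.U i ∩ O → x ∈ L.U j ∩ O → x ∈ O' → v i () x = L.g i j x * v j () x :=
    fun i j x hi hj hx => (mul_one _).symm.trans
      (hv.chg i j () () x (hV ⟨hi.2, hx⟩) hi.1 hj.1 trivial trivial)
  refine ⟨?_, ?_, ?_, ?_, ?_⟩
  · rintro (_ | i)
    exacts [hO', (h.isOpen i).inter hO]
  · rintro x (hx | hx)
    · obtain ⟨i, hi⟩ := h.cover x hx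
      exact ⟨some i, hi, hA hx⟩
    · exact ⟨none, hB hx⟩
  · rintro (_ | i) (_ | j) x hi hj
    · exact sm_const 1
    · exact sm_inv (hs j x (hV ⟨hj.2, hi⟩) hj.1) (h0 j x hj hi)
    · exact hs i x (hV ⟨hi.2, hj⟩) hi.1
    · exact h.sm i j x hi.1 hj.1
  · rintro (_ | i) (_ | j) x hi hj
    · exact one_ne_zero
    · exact inv_ne_zero (h0 j x hj hi)
    · exact h0 i x hi hj
    · exact h.ne_zero i j x hi.1 hj.1
  · rintro (_ | i) (_ | j) (_ | k) x hi hj hk
    · exact mul_one _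
    · exact one_mul _
    · exact inv_mul_cancel₀ (h0 j x hj hi)
    · show (v j () x)⁻¹ * L.g j k x = (v k () x)⁻¹
      rw [h1 j k x hj hk hi, mul_inv, mul_right_comm, inv_mul_cancel₀ (h.ne_zero j k x hj.1 hk.1),
        one_mul]
    · exact mul_one _
    · show v i () x * (v k () x)⁻¹ = L.g i k x
      rw [h1 i k x hi hk hj, mul_inv_cancel_right₀ (h0 k x hk hj)]
    · exact (h1 i j x hi hj hk).symm
    · exact h.cocycle i j k x hi.1 hj.1 hk.1

variable [T2Space X] [SecondCountableTopology X] [IsManifold 𝓘(ℂ, Cm n) ω X]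

/-- a smooth isomorphism which approximates a continuous one -/
theorem approx {F : Set X} (hF : IsClosed F) {L L' : Bd X} (hL : SB n F L) (hL' : SB n F L')
    {u : L.ι → L'.ι → X → ℂ} (hu : Rel F L L' u)
    (hc : ∀ i j, ContinuousOn (u i j) (F ∩ L.U i ∩ L'.U j)) :
    ∃ V v, IsOpen V ∧ F ⊆ V ∧ Rel V L L' v ∧
      (∀ i j, ∀ x ∈ V, x ∈ L.U i → x ∈ L'.U j → Sm n (v i j) x) ∧
      ∀ i j, ∀ x ∈ F, x ∈ L.U i → x ∈ L'.U j → 0 < (v i j x / u i j x).re := by
  have := ChartedSpace.locallyCompactSpace (Cm n) X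
  choose I hI using fun p : F => hL.cover p p.2
  choose J hJ using fun p : F => hL'.cover p p.2
  have hN : ∀ p : F, ∃ N : Set X, (∀ y ∈ N, y ∈ L.U (I p) ∧ y ∈ L'.U (J p) ∧
      (y ∈ F → 0 < (u (I p) (J p) p / u (I p) (J p) y).re)) ∧ IsOpen N ∧ (p : X) ∈ N := fun p => by
    have h0 := hu.ne_zero _ _ p p.2 (hI p) (hJ p)
    have h1 : ContinuousWithinAt (fun y => (u (I p) (J p) p / u (I p) (J p) y).re)
        (F ∩ L.U (I p) ∩ L'.U (J p)) p := Complex.continuous_re.continuousAt.comp_continuousWithinAt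
      (continuousWithinAt_const.div (hc _ _ p ⟨⟨p.2, hI p⟩, hJ p⟩) h0)
    have h2 := h1.eventually (lt_mem_nhds (a := (0 : ℝ)) (by simp [h0]))
    refine eventually_nhds_iff.1 ?_
    filter_upwards [eventually_nhdsWithin_iff.1 h2, (hL.isOpen _).mem_nhds (hI p),
      (hL'.isOpen _).mem_nhds (hJ p)] with y h3 h4 h5
    exact ⟨h4, h5, fun hy => h3 ⟨⟨hy, h4⟩, h5⟩⟩
  choose N hN hNo hNp using hN
  obtain ⟨χ, hχ, hs, h0, hl, h1⟩ := exists_pou (d := n) (fun a : Option F => a.elim Fᶜ N)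
    (by rintro (_ | p); exacts [hF.isOpen_compl, hNo p]) fun x => by
      by_cases hx : x ∈ F
      exacts [⟨some ⟨x, hx⟩, hNp _⟩, ⟨none, hx⟩]
  let T : Option F → L.ι → L'.ι → X → ℂ := fun a i j y => a.elim 0 fun p =>
    L.g i (I p) y * u (I p) (J p) p * (L'.g j (J p) y)⁻¹
  let v : L.ι → L'.ι → X → ℂ := fun i j y => ∑ᶠ a, χ a y • T a i j y
  have hsm : ∀ i j x, x ∈ L.U i → x ∈ L'.U j → Sm n (v i j) x := fun i j x hi hj e he => by
    refine contDiffAt_patch hχ hs hl he (F := fun a z => T a i j (e.symm z)) ?_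
    rintro (_ | p) hp
    · exact contDiffAt_const
    · exact sm_mul (sm_mul (hL.sm i _ x hi (hN p x hp).1) (sm_const _))
        (sm_inv (hL'.sm j _ x hj (hN p x hp).2.1) (hL'.ne_zero j _ x hj (hN p x hp).2.1)) e he
  have hchg : ∀ i i' j j' x, x ∈ L.U i → x ∈ L.U i' → x ∈ L'.U j → x ∈ L'.U j' →
      v i j x * L'.g j j' x = L.g i i' x * v i' j' x := fun i i' j j' x hi hi' hj hj' => by
    rw [finsum_mul, mul_finsum]
    refine finsum_congr fun a => ?_
    by_cases ha : χ a x = 0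
    · simp [ha]
    rcases a with _ | p
    · simp [T]
    · have h2 := hN p x (hs _ (subset_tsupport _ ha))
      have h3 := hL'.ne_zero j j' x hj hj'
      have h4 := hL'.ne_zero j' _ x hj' h2.2.1
      simp only [T, Option.elim, ← hL.cocycle i i' _ x hi hi' h2.1,
        ← hL'.cocycle j j' _ x hj hj' h2.2.1, Complex.real_smul]
      field_simp
  have hpos : ∀ i j, ∀ x ∈ F, x ∈ L.U i → x ∈ L'.U j → 0 < (v i j x / u i j x).re := by
    intro i j x hx hi hj
    obtain ⟨t, ht⟩ := finsum_loc hl x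
    have ht' := ht.self_of_nhds
    have h2 : v i j x = ∑ a ∈ t, χ a x • T a i j x :=
      finsum_eq_sum_of_support_subset _ fun a ha => by
        by_contra h
        exact ha (by show χ a x • T a i j x = 0; rw [ht' a h, zero_smul])
    have h3 : ∀ a, χ a x ≠ 0 → 0 < (χ a x • T a i j x / u i j x).re := by
      rintro (_ | p) ha
      · exact absurd hx (hs _ (subset_tsupport _ ha))
      · have h4 := hN p x (hs _ (subset_tsupport _ ha))
        have h5 := hu.chg i _ j _ x hx hi h4.1 hj h4.2.1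
        have h6 := hL'.ne_zero j _ x hj h4.2.1
        have h7 := hu.ne_zero i j x hx hi hj
        have h8 := hu.ne_zero _ _ x hx h4.1 h4.2.1
        have h9 : T (some p) i j x / u i j x = u (I p) (J p) p / u (I p) (J p) x := by
          simp only [T, Option.elim]
          field_simp
          linear_combination -u (I p) (J p) p * h5
        rw [smul_div_assoc, h9, Complex.smul_re]
        exact mul_pos ((h0 _ x).lt_of_ne' ha) (h4.2.2 hx)
    obtain ⟨a, ha⟩ : ∃ a, χ a x ≠ 0 := by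
      by_contra h
      push Not at h
      have h4 := h1 x
      simp [h] at h4
    rw [h2, Finset.sum_div, Complex.re_sum]
    refine Finset.sum_pos' (fun b _ => ?_) ⟨a, by_contra fun h => ha (ht' a h), h3 a ha⟩
    by_cases hb : χ b x = 0
    · simp [hb]
    · exact (h3 b hb).le
  refine ⟨⋃ i, ⋃ j, L.U i ∩ L'.U j ∩ v i j ⁻¹' {0}ᶜ, v, isOpen_iUnion fun i => isOpen_iUnion
    fun j => ContinuousOn.isOpen_inter_preimage (fun x hx =>
      (sm_cont (hsm i j x hx.1 hx.2)).continuousWithinAt) ((hL.isOpen i).inter (hL'.isOpen j))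
      isOpen_compl_singleton, fun x hx => ?_, ⟨fun i j x hx hi hj h2 => ?_,
    fun i i' j j' x _ => hchg i i' j j' x⟩, fun i j x _ => hsm i j x, hpos⟩
  · refine mem_iUnion₂.2 ⟨I ⟨x, hx⟩, J ⟨x, hx⟩, ⟨hI _, hJ _⟩, fun h2 => ?_⟩
    have h3 := hpos _ _ x hx (hI ⟨x, hx⟩) (hJ ⟨x, hx⟩)
    rw [mem_singleton_iff.1 h2] at h3
    simp at h3
  · obtain ⟨i', j', ⟨hi', hj'⟩, h3⟩ := mem_iUnion₂.1 hx
    have h4 := hchg i i' j j' x hi hi' hj hj'
    rw [h2, zero_mul] at h4
    exact mul_ne_zero (hL.ne_zero i i' x hi hi') h3 h4.symm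

/-- the induction step -/
theorem step {A B : Set X} (hA : IsCompact A) (hB : IsCompact B) {L L₁ : Bd X}
    (hL : CB (A ∪ B) L) {k : L.ι} (hk : B ⊆ L.U k) (h₁ : SB n A L₁) (hi : Iso A L₁ L) :
    ∃ L' : Bd X, SB n (A ∪ B) L' ∧ Iso (A ∪ B) L' L := by
  have := ChartedSpace.locallyCompactSpace (Cm n) X
  obtain ⟨u, hu, hc⟩ := hi
  have hLA := cb_mono hL subset_union_left
  have hLB := cb_mono hL subset_union_right
  have hAB := hA.isClosed.inter hB.isClosed
  obtain ⟨V, v, hV, hV', hv, hs, hp⟩ := approx (n := n) hAB (L := L₁) (L' := triv X)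
    ⟨h₁.isOpen, fun x hx => h₁.cover x hx.1, h₁.sm, h₁.ne_zero, h₁.cocycle⟩ (sb_triv _)
    (u := fun i _ => u i k) ⟨fun i _ x hx hi _ => hu.ne_zero i k x hx.1 hi (hk hx.2),
      fun i i' _ _ x hx hi hi' _ _ => by
        rw [← hu.chg i i' k k x hx.1 hi hi' (hk hx.2) (hk hx.2), cb_one hLA hx.1 (hk hx.2)]
        rfl⟩
    fun i _ => (hc i k).mono fun x hx => ⟨⟨hx.1.1.1, hx.1.2⟩, hk hx.1.1.2⟩
  obtain ⟨O, O', hO, hO', hAO, hBO, hd⟩ : SeparatedNhds (A \ V) (B \ V) :=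
    SeparatedNhds.of_isCompact_isCompact (hA.diff hV) (hB.diff hV)
      (disjoint_left.2 fun x h1 h2 => h1.2 (hV' ⟨h1.1, h2.1⟩))
  have a1 : A ⊆ O ∪ V := fun x hx => (em (x ∈ V)).symm.imp_left fun h => hAO ⟨hx, h⟩
  have a2 : B ⊆ O' ∪ V := fun x hx => (em (x ∈ V)).symm.imp_left fun h => hBO ⟨hx, h⟩
  have hS := sb_glue h₁ (hO.union hV) (hO'.union hV) a1 a2 (V := V) (by
    rintro x ⟨h1 | h1, h2 | h2⟩
    exacts [absurd h2 (disjoint_left.1 hd h1), h2, h1, h1]) hv
    fun i x hx hi => hs i () x hx hi trivial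
  refine ⟨_, hS, ?_⟩
  have hC := sb_cb hS
  obtain ⟨w, hw, hwc, hwe⟩ := trans (cb_mono hC subset_union_left) (sb_cb h₁) hLA
    (u := fun a i => (glue L₁ (O ∪ V) (O' ∪ V) fun i => v i ()).g a (some i))
    ⟨fun a i x hx ha hi => hS.ne_zero a (some i) x ha ⟨hi, a1 hx⟩,
      fun a a' i i' x hx ha ha' hi hi' =>
        (hS.cocycle a (some i) (some i') x ha ⟨hi, a1 hx⟩ ⟨hi', a1 hx⟩).trans
          (hS.cocycle a a' (some i') x ha ha' ⟨hi', a1 hx⟩).symm⟩
    (fun a i => (hC.cont a (some i)).mono fun x hx =>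
      ⟨⟨Or.inl hx.1.1, hx.1.2⟩, hx.2, a1 hx.1.1⟩) hu hc
  obtain ⟨r, hr, hr0, hre⟩ := ext_pos hAB (h := w none k)
    ((hwc none k).mono fun x hx => ⟨⟨hx.1, a2 hx.2⟩, hk hx.2⟩) fun x hx => by
      obtain ⟨i, hi⟩ := h₁.cover x hx.1
      have h1 := hp i () x hx hi trivial
      have h2 : w none k x = (v i () x / u i k x)⁻¹ := by
        rw [hwe none i k x hx.1 (a2 hx.2) hi (hk hx.2), inv_div, div_eq_inv_mul]
        rfl
      rw [h2, Complex.inv_re]
      exact div_pos h1 (Complex.normSq_pos.2 fun e => by simp [e] at h1)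
  refine paste hA.isClosed hB.isClosed hw hwc (u' := fun a j x =>
    (glue L₁ (O ∪ V) (O' ∪ V) fun i => v i ()).g a none x * r x * L.g k j x)
    ⟨fun a j x hx ha hj => mul_ne_zero (mul_ne_zero (hS.ne_zero a none x ha (a2 hx)) (hr0 x))
      (hLB.ne_zero k j x hx (hk hx) hj), fun a a' j j' x hx ha ha' hj hj' => ?_⟩
    (fun a j => ?_) fun a j x hx hx' ha hj => ?_
  · rw [← hS.cocycle a a' none x ha ha' (a2 hx), ← hLB.cocycle k j j' x hx (hk hx) hj hj']
    ring
  · exact (((hC.cont a none).mono fun x hx => ⟨⟨Or.inr hx.1.1, hx.1.2⟩, a2 hx.1.1⟩).mul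
      hr.continuousOn).mul ((hLB.cont k j).mono fun x hx => ⟨⟨hx.1.1, hk hx.1.1⟩, hx.2⟩)
  · rw [hre x ⟨hx, hx'⟩, ← hw.chg a none j k x hx ha (a2 hx') hj (hk hx'), mul_assoc,
      hLA.cocycle j k j x hx hj (hk hx') hj, cb_one hLA hx hj, mul_one]

end SmH

open SmH

theorem g3 : StG3 := by
  intro n X _ _ _ _ _ F hF L L' hL hL' ⟨u, hu, hc⟩
  obtain ⟨V, v, h1, h2, h3, h4, -⟩ := approx hF.isClosed hL hL' hu hc
  exact ⟨V, h1, h2, v, h3, h4⟩

theorem sm : StSm := by
  intro n X _ _ _ _ _ F hF L hL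
  classical
  obtain ⟨t, ht⟩ := hF.elim_finite_subcover L.U hL.isOpen fun x hx => mem_iUnion.2 (hL.cover x hx)
  induction t using Finset.induction_on generalizing F with
  | empty =>
    obtain rfl : F = ∅ := by simpa using ht
    exact ⟨triv X, sb_triv _, fun _ _ _ => 1, ⟨fun _ _ _ h => h.elim, fun _ _ _ _ _ h => h.elim⟩,
      fun _ _ => continuousOn_const⟩
  | insert k t _ ih =>
    rw [Finset.set_biUnion_insert, union_comm] at ht
    obtain ⟨A, B, hA, hB, h1, h2, rfl⟩ := hF.binary_compact_cover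
      (isOpen_biUnion fun i _ => hL.isOpen i) (hL.isOpen k) ht
    obtain ⟨L₁, h3, h4⟩ := ih A hA (cb_mono hL subset_union_left) h1
    exact step hA hB hL h2 h3 h4

end Vale.Agent.P277Z.Ln
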