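import Vale.Agent.P277Z.Ln.Hol
import Vale.Agent.P277Z.Ln.Sm
import Vale.Agent.P277Z.Ln.Gl

/-!
# P277Z, block LN: the assembly of step 6a
-/

set_option linter.all false

open scoped Manifold ContDiff Topology ComplexConjugate ENNReal
open Set Filter MeasureTheory Metric
open Vale.Agent.P272.K Vale.Agent.P284.H608.K
open Vale.Agent.P285.H281.FD (Bd)

noncomputable section

namespace Vale.Agent.P277Z.Ln

section top

variable {X Y : Type} [TopologicalSpace X] [TopologicalSpace Y] {A : Set X} {L M N : Bd X}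

theorem Iso.trans (hL : CB A L) (hM : CB A M) (hN : CB A N) (h : Iso A L M) (h' : Iso A M N) :
    Iso A L N := by
  obtain ⟨u, h1, h2⟩ := h
  obtain ⟨u', h3, h4⟩ := h'
  obtain ⟨w, h5, h6, -⟩ := SmH.trans hL hM hN h1 h2 h3 h4
  exact ⟨w, h5, h6⟩

theorem Iso.symm (hL : CB A L) (hM : CB A M) (h : Iso A L M) : Iso A M L := by
  obtain ⟨u, h1, h2⟩ := h
  refine ⟨fun j i x => (u i j x)⁻¹, ⟨fun j i x hx hj hi => inv_ne_zero (h1.ne_zero i j x hx hi hj),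
    fun j j' i i' x hx hj hj' hi hi' => ?_⟩, fun j i => ?_⟩
  · have k1 := h1.chg i i' j j' x hx hi hi' hj hj'
    have k2 := h1.ne_zero i j x hx hi hj
    have k3 := h1.ne_zero i' j' x hx hi' hj'
    field_simp
    linear_combination -k1
  · exact ((h2 i j).mono fun x hx => ⟨⟨hx.1.1, hx.2⟩, hx.1.2⟩).inv₀ fun x hx =>
      h1.ne_zero i j x hx.1.1 hx.2 hx.1.2

theorem Iso.mono {B : Set X} (h : Iso A L M) (hB : B ⊆ A) : Iso B L M := by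
  obtain ⟨u, h1, h2⟩ := h
  exact ⟨u, ⟨fun i j x hx => h1.ne_zero i j x (hB hx),
    fun i i' j j' x hx => h1.chg i i' j j' x (hB hx)⟩,
    fun i j => (h2 i j).mono fun x hx => ⟨⟨hB hx.1.1, hx.1.2⟩, hx.2⟩⟩

theorem CB.pl {f : Y → X} (hf : Continuous f) (h : CB A L) : CB (f ⁻¹' A) (pl f L) :=
  ⟨fun i => (h.isOpen i).preimage hf, fun y hy => h.cover _ hy,
    fun i j => (h.cont i j).comp hf.continuousOn fun _ hy => hy,
    fun i j y => h.ne_zero i j (f y), fun i j k y => h.cocycle i j k (f y)⟩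

theorem Iso.pl {f : Y → X} (hf : Continuous f) (h : Iso A L M) :
    Iso (f ⁻¹' A) (pl f L) (pl f M) := by
  obtain ⟨u, h1, h2⟩ := h
  exact ⟨fun i j y => u i j (f y), ⟨fun i j y => h1.ne_zero i j (f y),
    fun i i' j j' y => h1.chg i i' j j' (f y)⟩,
    fun i j => (h2 i j).comp hf.continuousOn fun _ hy => hy⟩

end top

theorem lb_sb {n N : ℕ} {G : Geo n N} {L : Bd G.W} (h : G.LB L) : SB n G.F L :=
  ⟨h.isOpen, h.cover, fun i j x hi hj => Sm.of_hol (h.holo i j x hi hj), h.ne_zero, h.cocycle⟩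

/-- **LB** (step 6a), with the fibre inside of `E` -/
def StLB' : Prop :=
  ∀ (N : ℕ) (G : Geo 4 N) (R : RData G), G.F ⊆ R.E → ∀ (κ : Type) [Finite κ] (E : κ → Type)
    [∀ k, TopologicalSpace (E k)] [∀ k, T2Space (E k)] [∀ k, SecondCountableTopology (E k)]
    [∀ k, ChartedSpace (Cm 3) (E k)] [∀ k, IsManifold 𝓘(ℂ, Cm 3) ω (E k)]
    (ι : ∀ k, E k → G.W) (L : ∀ k, Bd (E k)),
    (∀ k, Continuous (ι k)) → (∀ k, Function.Injective (ι k)) →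
    (∀ k, IsCompact (ι k ⁻¹' G.F)) →
    (∀ k y a, Hol 4 a (ι k y) → Hol 3 (fun z => a (ι k z)) y) →
    (∀ x ∈ G.F, ∃ k, x ∈ range (ι k)) → (∀ k, SB 3 (ι k ⁻¹' G.F) (L k)) →
    (∀ k m j, k ≠ m → m ≠ j → k ≠ j →
      (G.F ∩ range (ι k) ∩ range (ι m) ∩ range (ι j)).Finite) →
    (∀ k m, k ≠ m → Iso {q : E k × E m | ι k q.1 = ι m q.2 ∧ ι k q.1 ∈ G.F}
      (pl Prod.fst (L k)) (pl Prod.snd (L m))) →
    ∃ L₁ : Bd G.W, G.LB L₁ ∧
      ∀ k, ∃ V, IsOpen V ∧ ι k ⁻¹' G.F ⊆ V ∧ SIso 3 V (pl (ι k) L₁) (L k)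

/-- **LB** -/
theorem lb_of (hR : R2.StR2') : StLB' := by
  intro N G R hE κ _ E _ _ _ _ _ ι L h1 h2 h3 h4 h5 h6 h7 h8
  obtain ⟨L₀, a0, a1⟩ := gl G.W G.F κ E ι L h1 h2 h3 h5 (fun k => SmH.sb_cb (h6 k)) h7 h8
  obtain ⟨L', b0, b1⟩ := sm 4 G.W G.F G.cpt L₀ a0
  obtain ⟨L₁, c0, c1⟩ := hol_of hR N G R hE L' b0
  have d0 := SmH.sb_cb (lb_sb c0)
  have d1 := Iso.trans d0 (SmH.sb_cb b0) a0 c1 b1
  refine ⟨L₁, c0, fun k => g3 3 (E k) _ (h3 k) _ _ ?_ (h6 k) (Iso.trans (d0.pl (h1 k))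
    (a0.pl (h1 k)) (SmH.sb_cb (h6 k)) (d1.pl (h1 k)) (a1 k))⟩
  exact ⟨fun i => (c0.isOpen i).preimage (h1 k), fun y hy => c0.cover _ hy,
    fun i j y hi hj => Sm.of_hol (h4 k y _ (c0.holo i j _ hi hj)),
    fun i j y => c0.ne_zero i j (ι k y), fun i j l y => c0.cocycle i j l (ι k y)⟩

end Vale.Agent.P277Z.Ln
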