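import Vale.Agent.P277Z.Ln.Defs
import Vale.Agent.P277Z.Cvx.Dio
import Vale.Agent.P301.H949.Loc

/-!
# P277Z, block LN: a power of a flat line bundle is trivial as a continuous line bundle
-/

set_option linter.all false

open scoped Manifold ContDiff Topology
open Set Filter Complex
open Vale.Agent.P272.K
open Vale.Agent.P285.H281.FD (Bd IsLB Flat)

noncomputable section

namespace Vale.Agent.P277Z.Ln

namespace Tors

open Vale.Agent.P301.H949 (Cvx exists_cover)

variable {n : ℕ} {X : Type} [TopologicalSpace X] [ChartedSpace (Cm n) X]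

theorem cont {f : X → ℂ} {x : X} (h : Vale.Agent.P301.H949.Hol n f x) : ContinuousAt f x := by
  have he : At (chartAt (Cm n) x) x := ⟨chart_mem_atlas _ x, mem_chart_source _ x⟩
  have h1 := (h _ he).continuousAt.comp ((chartAt (Cm n) x).continuousAt he.2)
  refine h1.congr ?_
  filter_upwards [(chartAt (Cm n) x).open_source.mem_nhds he.2] with y hy
  simp only [Function.comp_apply, (chartAt (Cm n) x).left_inv hy]

theorem int_zero {t : ℝ} (h : exp (2 * Real.pi * I * t) = 1) (ht : |t| < 1) : t = 0 := by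
  obtain ⟨m, hm⟩ := exp_eq_one_iff.1 h
  have h1 : (t : ℂ) = m := mul_left_cancel₀ two_pi_I_ne_zero (hm.trans (mul_comm _ _))
  have h2 : t = m := by exact_mod_cast h1
  rw [h2] at ht ⊢
  exact_mod_cast Int.abs_lt_one_iff.1 (by exact_mod_cast ht)

theorem im_of_re {c : ℂ} (h : c.re = 0) : ∃ t : ℝ, 2 * Real.pi * I * t = c :=
  ⟨c.im / (2 * Real.pi), by
    have hp : (Real.pi : ℂ) ≠ 0 := ofReal_ne_zero.2 Real.pi_ne_zero
    nth_rewrite 2 [← re_add_im c]
    rw [h]
    push_cast
    field_simp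
    ring⟩

variable [IsManifold 𝓘(ℂ, Cm n) ω X]

/-- frames with constant transition functions of modulus one -/
theorem frames [CompactSpace X] [T2Space X] {L : Bd X} (hL : IsLB n L) (hF : Flat n L) :
    ∃ (N : ℕ) (U : Fin N → Set X) (k : Fin N → L.ι) (F : Fin N → X → ℂ) (t : Fin N × Fin N → ℝ),
      (∀ a, IsOpen (U a)) ∧ (∀ x, ∃ a, x ∈ U a) ∧ (∀ a, U a ⊆ L.U (k a)) ∧
      (∀ a, ∀ x ∈ U a, ContinuousAt (F a) x) ∧ ∀ a b, ∀ x ∈ U a, x ∈ U b →
        L.g (k a) (k b) x * exp (F b x) = exp (F a x) * exp (2 * Real.pi * I * t (a, b)) := by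
  obtain ⟨ψ, hψ, h0⟩ := hF
  obtain ⟨N, U, k, e, ho, hc, hs, hx, hxx⟩ := exists_cover (d := n) L.U hL.isOpen hL.cover
  choose F hF hFr using fun a => (hx a).exists_re (φ := ψ (k a))
    (fun x h => (hψ.smooth _ _ x ((hx a).at_ h) (hs a h)).of_le (by norm_cast))
    fun x h => h0 _ _ x ((hx a).at_ h) (hs a h)
  have key : ∀ p : Fin N × Fin N, ∃ t : ℝ, ∀ x ∈ U p.1, x ∈ U p.2 →
      L.g (k p.1) (k p.2) x * exp (F p.2 x / 2) =
        exp (F p.1 x / 2) * exp (2 * Real.pi * I * t) := by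
    rintro ⟨a, b⟩
    rcases (U a ∩ U b).eq_empty_or_nonempty with h | h
    · exact ⟨0, fun x h1 h2 => absurd (mem_inter h1 h2) (h ▸ notMem_empty x)⟩
    have hv := hxx a b h
    obtain ⟨y, hy⟩ := h
    obtain ⟨l, hl, hle⟩ := hv.exists_log (g := L.g (k a) (k b))
      (fun x h e he => (hL.holo _ _ e x he (hs a h.1) (hs b h.2)).analyticAt)
      fun x h => hL.ne_zero _ _ x (hs a h.1) (hs b h.2)
    have hre : ∀ x ∈ U a ∩ U b, (l x + F b x / 2 - F a x / 2).re = 0 := fun x h => by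
      have h1 := hψ.change _ _ x (hs a h.1) (hs b h.2)
      rw [← hle x h, norm_exp, ← Real.exp_nat_mul, Real.log_exp, ← hFr a x h.1,
        ← hFr b x h.2] at h1
      simp only [sub_re, add_re, div_ofNat_re]
      push_cast at h1
      linarith
    have hD : ∀ x ∈ U a ∩ U b,
        Vale.Agent.P301.H949.Hol n (fun x => l x + F b x / 2 - F a x / 2) x := fun x h e he => by
      have h1 := hl x h e he
      have h2 := hF b x h.2 e he
      have h3 := hF a x h.1 e he
      exact (h1.fun_add (h2.div_const (c := 2))).fun_sub (h3.div_const (c := 2))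
    have hc := fun x hx => hv.const_of_re_zero hD hre (x := x) hx hy
    obtain ⟨t, ht⟩ := im_of_re (hre y hy)
    refine ⟨t, fun x h1 h2 => ?_⟩
    rw [ht, ← hc x ⟨h1, h2⟩, ← hle x ⟨h1, h2⟩, ← exp_add, ← exp_add]
    congr 1
    ring
  choose t ht using key
  exact ⟨N, U, k, fun a x => F a x / 2, t, ho, hc, hs,
    fun a x h => (cont (hF a x h)).div_const 2, fun a b => ht (a, b)⟩

end Tors

open Tors in
theorem tors : StTors := by
  intro n X _ _ _ _ _ L hL hF
  obtain ⟨N, U, k, F, t, ho, hc, hs, hFc, ht⟩ := frames hL hF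
  obtain ⟨m, hm, z, hz, hzm⟩ := P277Z.Cvx.dirichlet t (η := 1 / 3) (by norm_num)
  set b : Fin N → Fin N → ℝ := fun a c => m * t (a, c) - z (a, c) with hb
  have hb1 : ∀ a c, |b a c| < 1 / 3 := fun a c => by
    have := (norm_le_pi_norm (z - (m : ℝ) • t) (a, c)).trans_lt hzm
    rwa [Real.norm_eq_abs, Pi.sub_apply, abs_sub_comm] at this
  have hb2 : ∀ a c, ∀ x ∈ U a, x ∈ U c → L.g (k a) (k c) x ^ m * exp (m * F c x) =
      exp (m * F a x) * exp (2 * Real.pi * I * b a c) := fun a c x h1 h2 => by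
    obtain ⟨j, hj⟩ := hz (a, c)
    have h3 : exp (2 * Real.pi * I * b a c) = exp (2 * Real.pi * I * t (a, c)) ^ m := by
      rw [← exp_nat_mul, exp_eq_exp_iff_exists_int]
      exact ⟨-j, by simp only [hb, hj]; push_cast; ring⟩
    rw [h3, exp_nat_mul, exp_nat_mul, ← mul_pow, ← mul_pow, ht a c x h1 h2]
  have hb3 : ∀ a c d, ∀ x ∈ U a, x ∈ U c → x ∈ U d → b a c + b c d = b a d := by
    intro a c d x h1 h2 h3
    have h4 := hb2 a d x h1 h3
    rw [← hL.cocycle _ (k c) _ x (hs a h1) (hs c h2) (hs d h3), mul_pow, mul_assoc,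
      hb2 c d x h2 h3, ← mul_assoc, hb2 a c x h1 h2, mul_assoc, ← exp_add] at h4
    have h5 := mul_left_cancel₀ (exp_ne_zero _) h4
    refine sub_eq_zero.1 (int_zero ?_ ?_)
    · rw [← div_self (exp_ne_zero (2 * Real.pi * I * b a d))]
      nth_rewrite 1 [← h5]
      rw [← exp_sub]
      congr 1
      push_cast
      ring
    · have := abs_lt.1 (hb1 a c)
      have := abs_lt.1 (hb1 c d)
      have := abs_lt.1 (hb1 a d)
      rw [abs_lt]
      constructor <;> linarith
  obtain ⟨ρ, hρ⟩ := PartitionOfUnity.exists_isSubordinate isClosed_univ U ho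
    fun x _ => mem_iUnion.2 (hc x)
  set w : Fin N → X → ℝ := fun a x => ∑ c, ρ c x * b a c with hw
  have hw1 : ∀ a, Continuous (w a) := fun a =>
    continuous_finset_sum _ fun c _ => (ρ c).continuous.mul continuous_const
  have hw2 : ∀ a c, ∀ x ∈ U a, x ∈ U c → w a x = b a c + w c x := fun a c x h1 h2 => by
    have h3 := ρ.sum_eq_one (mem_univ x)
    rw [finsum_eq_sum_of_fintype] at h3
    rw [← one_mul (b a c), ← h3, Finset.sum_mul, ← Finset.sum_add_distrib]
    refine Finset.sum_congr rfl fun d _ => ?_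
    by_cases h4 : ρ d x = 0
    · simp [h4]
    · rw [← mul_add, hb3 a c d x h1 h2 (hρ d (subset_tsupport _ h4))]
  set v : L.ι → Fin N → X → ℂ := fun i a x =>
    L.g i (k a) x ^ m * exp (m * F a x) * exp (2 * Real.pi * I * w a x) with hv
  have hv1 : ∀ i a c, ∀ x ∈ L.U i, x ∈ U a → x ∈ U c → v i c x = v i a x := by
    intro i a c x h0 h1 h2
    simp only [hv]
    rw [← hL.cocycle i (k a) _ x h0 (hs a h1) (hs c h2), mul_pow, mul_assoc (_ ^ m),
      hb2 a c x h1 h2, hw2 a c x h1 h2, ofReal_add, mul_add, exp_add]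
    ring
  choose α hα using hc
  refine ⟨m, hm, fun i _ x => v i (α x) x, ⟨fun i _ x _ hi _ => ?_, ?_⟩, fun i _ x hx => ?_⟩
  · exact mul_ne_zero (mul_ne_zero (pow_ne_zero _ (hL.ne_zero _ _ x hi (hs _ (hα x))))
      (exp_ne_zero _)) (exp_ne_zero _)
  · intro i i' _ _ x _ hi hi' _ _
    show v i (α x) x * 1 = L.g i i' x ^ m * v i' (α x) x
    simp only [hv]
    rw [← hL.cocycle i i' _ x hi hi' (hs _ (hα x))]
    ring
  · have hi : x ∈ L.U i := hx.1.2
    have h1 : ContinuousAt (v i (α x)) x :=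
      (((cont fun e he => (hL.holo _ _ e x he hi (hs _ (hα x))).analyticAt).pow m).mul
        (continuousAt_const.mul (hFc _ x (hα x))).cexp).mul
        (continuousAt_const.mul (continuous_ofReal.comp (hw1 _)).continuousAt).cexp
    refine (h1.congr ?_).continuousWithinAt
    filter_upwards [(hL.isOpen i).mem_nhds hi, (ho _).mem_nhds (hα x)] with y h2 h3
    exact hv1 i _ _ y h2 (hα y) h3

end Vale.Agent.P277Z.Ln
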